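import Vale.Agent.P247E.R.Ops

/-!
# P247E, block R: existence of solutions of the truncated system
-/

set_option linter.all false

open scoped ContDiff Topology ENNReal NNReal ComplexConjugate
open Set MeasureTheory Filter Metric

noncomputable section

namespace Vale.Agent.P247E.R

open Vale.Agent.P204.GX Vale.Agent.P204.T4
open Vale.Agent.P247.H74 (e)
open Vale.Agent.P247.H647 (Sp En sig pau pauM omM hat len jz symb cov P3 nz jf)

theorem exists_coord {H : Type} [NormedAddCommGroup H] [InnerProductSpace ℝ H]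
    (σ : (Fin 3 → ℝ) →L[ℝ] H) :
    ∃ c : H →L[ℝ] (Fin 3 → ℝ), ∀ g u, inner ℝ (σ u) (σ (c g) - g) = 0 := by
  set U : Submodule ℝ H := LinearMap.range (σ : (Fin 3 → ℝ) →ₗ[ℝ] H) with hU
  have : FiniteDimensional ℝ U := inferInstance
  have : CompleteSpace U := FiniteDimensional.complete ℝ U
  obtain ⟨r, hr⟩ := LinearMap.exists_rightInverse_of_surjective
    (σ : (Fin 3 → ℝ) →ₗ[ℝ] H).rangeRestrict (LinearMap.range_rangeRestrict _)
  refine ⟨(LinearMap.toContinuousLinearMap r).comp U.orthogonalProjection, fun g u => ?_⟩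
  have h1 : σ (r (U.orthogonalProjection g)) = U.starProjection g :=
    congrArg Subtype.val (LinearMap.congr_fun hr (U.orthogonalProjection g))
  show inner ℝ (σ u) (σ (r (U.orthogonalProjection g)) - g) = 0
  rw [h1, ← neg_sub, inner_neg_right, neg_eq_zero, real_inner_comm]
  exact U.starProjection_inner_eq_zero g _ ⟨u, rfl⟩

variable {X : Type} [MetricSpace X] [CompactSpace X] [ConnectedSpace X] [MeasurableSpace X]
  [BorelSpace X] {Q : QM X} {L : LBc Q.toCM}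

theorem bm_tau (Q : QM X) (j : Fin 3) : BM fun x => E3 (Q.T x j) :=
  BM.lin E3 (bm_charts fun a => lb_cont (continuous_pi fun k => (Q.T_smooth j k a).continuous))

/-- the forms `w j` in `L²` -/
def tau (Q : QM X) (j : Fin 3) : LL2 Q.toCM Sp := ((bm_tau Q j).memLp 2).toLp

theorem inner_tau (j : Fin 3) (g : LL2 Q.toCM Sp) :
    inner ℝ (tau Q j) g = ∫ x, ∑ k, Q.T x j k * vec ((g : X → Sp) x) k.succ ∂Q.mu := by
  rw [L2.inner_def]
  refine integral_congr_ae ?_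
  filter_upwards [((bm_tau Q j).memLp 2).coeFn_toLp] with x hx
  rw [tau, hx, inner_E3]

/-- linear combinations -/
def sg (Q : QM X) : (Fin 3 → ℝ) →L[ℝ] LL2 Q.toCM Sp :=
  ∑ j, (ContinuousLinearMap.proj j : (Fin 3 → ℝ) →L[ℝ] ℝ).smulRight (tau Q j)

theorem sg_apply (u : Fin 3 → ℝ) : sg Q u = ∑ j, u j • tau Q j := by simp [sg]

theorem sg_single (j : Fin 3) : sg Q (Pi.single j 1) = tau Q j := by
  rw [sg_apply, Finset.sum_eq_single j] <;> simp +contextual [Pi.single_apply]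

theorem sg_ae (u : Fin 3 → ℝ) : (sg Q u : X → Sp) =ᵐ[Q.mu] fun x => E3 (Q.nu u x) := by
  rw [sg_apply, Fin.sum_univ_three]
  filter_upwards [Lp.coeFn_add (u 0 • tau Q 0 + u 1 • tau Q 1) (u 2 • tau Q 2),
    Lp.coeFn_add (u 0 • tau Q 0) (u 1 • tau Q 1), Lp.coeFn_smul (u 0) (tau Q 0),
    Lp.coeFn_smul (u 1) (tau Q 1), Lp.coeFn_smul (u 2) (tau Q 2),
    ((bm_tau Q 0).memLp 2).coeFn_toLp, ((bm_tau Q 1).memLp 2).coeFn_toLp,
    ((bm_tau Q 2).memLp 2).coeFn_toLp] with x h1 h2 h3 h4 h5 h6 h7 h8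
  rw [h1, Pi.add_apply, h2, Pi.add_apply, h3, h4, h5, Pi.smul_apply, Pi.smul_apply, Pi.smul_apply,
    tau, tau, tau, h6, h7, h8, ← map_smul, ← map_smul, ← map_smul, ← map_add, ← map_add]
  congr 1
  funext k
  simp [QM.nu, Matrix.vecMul, dotProduct, Fin.sum_univ_three]

theorem bm_F0 (h2 : BQ2_statement) (L : LBc Q.toCM) : BM fun x => E3 (L.Fh x) := by
  refine BM.lin E3 ⟨?_, ?_⟩
  · exact (measurable_pi_iff.2 fun k => (bm_Fh BQ1 h2 L k).1.measurable).stronglyMeasurable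
  · choose C hC using fun k => (bm_Fh BQ1 h2 L k).2
    exact ⟨‖C‖, fun x => (pi_norm_le_iff_of_nonneg (norm_nonneg _)).2 fun k =>
      (hC k x).trans ((le_abs_self _).trans (norm_le_pi_norm C k))⟩

/-- the Nemytskii operator -/
def nq (Q : QM X) {R : ℝ} (hR : 0 < R) (f : LL2 Q.toCM Sp) : LL2 Q.toCM Sp :=
  E3.compLpL 2 Q.mu ((qT_lip hR).compLp (qT_zero R) f)

theorem nq_cont {R : ℝ} (hR : 0 < R) : Continuous (nq Q hR) :=
  (E3.compLpL 2 Q.mu).continuous.comp ((qT_lip hR).continuous_compLp (qT_zero R))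

theorem nq_ae {R : ℝ} (hR : 0 < R) (f : LL2 Q.toCM Sp) :
    (nq Q hR f : X → Sp) =ᵐ[Q.mu] fun x => E3 (qT R ((f : X → Sp) x)) := by
  filter_upwards [E3.coeFn_compLpL ((qT_lip hR).compLp (qT_zero R) f),
    (qT_lip hR).coeFn_compLp (qT_zero R) f] with x h1 h2
  rw [nq, h1, h2]; rfl

theorem nq_neg {R : ℝ} (hR : 0 < R) (f : LL2 Q.toCM Sp) : nq Q hR (-f) = nq Q hR f := by
  refine Lp.ext ?_
  filter_upwards [nq_ae hR (-f), nq_ae hR f, Lp.coeFn_neg f] with x h1 h2 h3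
  rw [h1, h2, h3, Pi.neg_apply, qT_neg]

theorem mul_cont {B : ℝ} {Z : (Fin 3 → ℝ) → X → En} (hZ : ZFam Q B Z) (L : LBc Q.toCM) :
    Continuous fun c => mulOp Q.toCM fun x => reL (Z c x) := by
  refine continuous_iff_continuousAt.2 fun c₀ => Metric.tendsto_nhds.2 fun ε hε => ?_
  filter_upwards [hZ.cont c₀ (ε / 2) (half_pos hε)] with c hc
  rw [dist_eq_norm]
  refine lt_of_le_of_lt (ContinuousLinearMap.opNorm_le_bound _ (half_pos hε).le fun f => ?_)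
    (half_lt_self hε)
  refine Lp.norm_le_mul_norm_of_ae_le_mul ?_
  filter_upwards [(hZ.hom c L).bm.mulOp_ae f, (hZ.hom c₀ L).bm.mulOp_ae f,
    Lp.coeFn_sub (mulOp Q.toCM (fun x => reL (Z c x)) f) (mulOp Q.toCM (fun x => reL (Z c₀ x)) f)]
    with x h1 h2 h3
  rw [ContinuousLinearMap.sub_apply, h3, Pi.sub_apply, h1, h2]
  exact (Z c x - Z c₀ x).le_of_opNorm_le (hc x) _

/-- existence of a zero of the odd map -/
theorem exists_zero (hcl : (Q.dirac L).Cliff) (hind : 1 ≤ (Q.dirac L).ind) {ρ : ℝ} (hρ : 0 < ρ)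
    {A : LL2 Q.toCM Sp → L.bp.H1 →L[ℝ] LL2 Q.toCM Sp} (Ac : Continuous A)
    (Acp : ∀ f, IsCompactOperator (A f)) (Aneg : ∀ f, A (-f) = A f) :
    ∃ w : L.bp.H1, ‖w‖ = ρ ∧ (Q.dirac L).clm w + A (L.bp.J w) w = 0 := by
  obtain ⟨S, hS, hS'⟩ := IsCompactOperator.image_closedBall_subset_compact
    (f := (L.bp.J : L.bp.H1 →ₗ[ℝ] LL2 Q.toCM Sp)) (rel X Q.toCM Sp Sp L.bp L.bp) ρ
  obtain ⟨T, hT, hT'⟩ := cpt_family hS Ac Acp
  have fr := hcl.fr rfl
  have c1 : Continuous fun w : L.bp.H1 => L.bp.J (ρ • w) :=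
    L.bp.J.continuous.comp (continuous_const_smul ρ)
  obtain ⟨w₀, hw₀, heq⟩ := FBU0 _ _ (Q.dirac L).clm fr.ker fr.cl fr.cok hind
    (fun w => A (L.bp.J (ρ • w)) w) (((Ac.comp c1).clm_apply continuous_id).continuousOn)
    (fun w _ => by rw [smul_neg, map_neg L.bp.J, Aneg, map_neg])
    ⟨T, hT, fun w hw => hT' _ (hS' ⟨ρ • w, by
      rw [mem_closedBall_zero_iff, norm_smul, hw, mul_one, Real.norm_of_nonneg hρ.le], rfl⟩) w hw.le⟩
  refine ⟨ρ • w₀, by rw [norm_smul, hw₀, mul_one, Real.norm_of_nonneg hρ.le], ?_⟩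
  rw [map_smul (Q.dirac L).clm, map_smul (A _), ← smul_add, heq, smul_zero]

/-- the curvature of the base connection in `L²` -/
def F0 (h2 : BQ2_statement) (L : LBc Q.toCM) : LL2 Q.toCM Sp := ((bm_F0 h2 L).memLp 2).toLp

theorem F0_ae (h2 : BQ2_statement) (L : LBc Q.toCM) :
    (F0 h2 L : X → Sp) =ᵐ[Q.mu] fun x => E3 (L.Fh x) := ((bm_F0 h2 L).memLp 2).coeFn_toLp

theorem tau_F0 (h2 : BQ2_statement) (hF : ∀ j, Q.pr L.F (Q.w j) = 0) (j : Fin 3) :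
    inner ℝ (tau Q j) (F0 h2 L) = 0 := by
  obtain ⟨-, hQ, -⟩ := h2 X Q L
  rw [inner_tau, ← hF j, CM.pr]
  refine integral_congr_ae ?_
  filter_upwards [F0_ae h2 L] with x hx
  simp only [hx, vec_E3_succ, hQ]
  rfl

theorem sub_ae {R : ℝ} (hR : 0 < R) (c : Fin 3 → ℝ) (f : LL2 Q.toCM Sp) :
    ((sg Q c - (1 / 2 : ℝ) • nq Q hR f : LL2 Q.toCM Sp) : X → Sp) =ᵐ[Q.mu] fun x =>
      E3 (Q.nu c x - (1 / 2 : ℝ) • qT R ((f : X → Sp) x)) := by
  filter_upwards [Lp.coeFn_sub (sg Q c) ((1 / 2 : ℝ) • nq Q hR f),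
    Lp.coeFn_smul (1 / 2 : ℝ) (nq Q hR f), sg_ae (Q := Q) c, nq_ae hR f] with x a2 a3 a4 a5
  rw [a2, Pi.sub_apply, a3, Pi.smul_apply, a4, a5, map_sub, map_smul]

theorem wsol_of (h2 : BQ2_statement) {H : Op Q.t1 Q.t0} {G : LL2 Q.toCM Sp →L[ℝ] Q.t1.H1}
    {B : ℝ} {Z : (Fin 3 → ℝ) → X → En} (hG : IsGreen Q H G) (hZ : ZFam Q B Z)
    (hF : ∀ j, Q.pr L.F (Q.w j) = 0) {R : ℝ} (hR : 0 < R) {w : L.bp.H1} {c : Fin 3 → ℝ}
    {g : LL2 Q.toCM Sp} (hg : g = sg Q c - (1 / 2 : ℝ) • nq Q hR (L.bp.J w))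
    (o1 : ∀ j, inner ℝ (tau Q j) g = 0)
    (heq : (Q.dirac L).clm w + (K1 Q.t1 L.bp (G (g - F0 h2 L)) w +
      mulOp Q.toCM (fun x => reL (Z c x)) (L.bp.J w)) = 0) :
    WSol Q L H Z R w (G (g - F0 h2 L)) c := by
  obtain ⟨-, -, -, -, -, -, -, -, -, -, -, hD⟩ := h2 X Q L
  have gae : (g : X → Sp) =ᵐ[Q.mu] fun x =>
      E3 (Q.nu c x - (1 / 2 : ℝ) • qT R ((L.bp.J w : X → Sp) x)) := by
    rw [hg]; exact sub_ae hR c _
  have rae : ((g - F0 h2 L : LL2 Q.toCM Sp) : X → Sp) =ᵐ[Q.mu] fun x =>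
      E3 (Q.nu c x - (1 / 2 : ℝ) • qT R ((L.bp.J w : X → Sp) x) - L.Fh x) := by
    filter_upwards [Lp.coeFn_sub g (F0 h2 L), gae, F0_ae h2 L] with x a1 a2 a3
    rw [a1, Pi.sub_apply, a2, a3, ← map_sub]
  have hH' : H.clm (G (g - F0 h2 L)) = g - F0 h2 L := by
    refine hG.right _ ?_ fun j => ?_
    · rw [← integral_zero X ℝ (μ := Q.mu)]
      refine integral_congr_ae ?_
      filter_upwards [rae] with x hx
      rw [hx, vec_E3_zero]
    · rw [← inner_tau, inner_sub_right, o1, tau_F0 h2 hF, sub_zero]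
  have hFa : ∀ᵐ x ∂Q.mu, ∀ k, Q.Fa L H (G (g - F0 h2 L)) x k =
      Q.nu c x k - (1 / 2) * qT R ((L.bp.J w : X → Sp) x) k := by
    filter_upwards [rae] with x hx k
    rw [QM.Fa, hH', hx, vec_E3_succ]
    simp
  refine ⟨?_, ?_, hFa, fun j => ?_⟩
  · generalize G (g - F0 h2 L) = φ at heq
    have a0 := Lp.coeFn_zero Sp 2 Q.mu
    rw [← heq] at a0
    filter_upwards [a0, Lp.coeFn_add ((Q.dirac L).clm w) (K1 Q.t1 L.bp φ w +
      mulOp Q.toCM (fun x => reL (Z c x)) (L.bp.J w)), hD w,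
      Lp.coeFn_add (K1 Q.t1 L.bp φ w) (mulOp Q.toCM (fun x => reL (Z c x)) (L.bp.J w)),
      K1_ae Q.t1 L.bp φ w, (hZ.hom c L).bm.mulOp_ae (L.bp.J w)] with x a1 a2 a3 a4 a5 a6
    rw [a2, Pi.add_apply, a3, a4, Pi.add_apply, a5, a6, cl_apply, reL_apply, Pi.zero_apply] at a1
    simp only [LBc.nabA, QM.av, map_sub, Finset.sum_sub_distrib]
    rw [← a1, sub_eq_add_neg, add_assoc]
  · filter_upwards [rae] with x hx
    rw [hH', hx, vec_E3_zero]
  · rw [← o1 j, inner_tau]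
    refine integral_congr_ae ?_
    filter_upwards [hFa, gae] with x a1 a2
    simp only [a1, a2, vec_E3_succ]
    rfl

theorem EXIST (h2 : BQ2_statement) : EXIST_statement := by
  intro X _ _ _ _ _ Q L H G B Z hH hG hZ hF hind ρ R hρ hR
  obtain ⟨cL, hcL⟩ := exists_coord (sg Q)
  have c0 : Continuous fun f => (1 / 2 : ℝ) • nq Q hR f :=
    (continuous_const_smul _).comp (nq_cont hR)
  have c1 : Continuous fun f => cL ((1 / 2 : ℝ) • nq Q hR f) := cL.continuous.comp c0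
  have c2 : Continuous fun f => G (sg Q (cL ((1 / 2 : ℝ) • nq Q hR f)) - (1 / 2 : ℝ) • nq Q hR f -
      F0 h2 L) := G.continuous.comp ((((sg Q).continuous.comp c1).sub c0).sub continuous_const)
  obtain ⟨w, hw, heq⟩ := exists_zero (h2 X Q L).2.2.2.2.2.2.2.2.2.1 hind hρ
    (A := fun f => K1 Q.t1 L.bp (G (sg Q (cL ((1 / 2 : ℝ) • nq Q hR f)) -
      (1 / 2 : ℝ) • nq Q hR f - F0 h2 L)) +
      (mulOp Q.toCM fun x => reL (Z (cL ((1 / 2 : ℝ) • nq Q hR f)) x)).comp L.bp.J)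
    (((K1 Q.t1 L.bp).continuous.comp c2).add
      (((mul_cont hZ L).comp c1).clm_comp continuous_const))
    (fun f => (K1_cpt _ _ _).add ((rel X Q.toCM Sp Sp L.bp L.bp).clm_comp _))
    (fun f => by simp only [nq_neg])
  exact ⟨w, _, _, wsol_of h2 hG hZ hF hR rfl (fun j => by rw [← sg_single]; exact hcL _ _) heq, hw⟩

end Vale.Agent.P247E.R
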