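import Vale.Agent.P247E.R.Exist

/-!
# P247E, block R: a priori bounds for the truncated system
-/

set_option linter.all false

open scoped ContDiff Topology ENNReal NNReal ComplexConjugate
open Set MeasureTheory Filter Metric

noncomputable section

namespace Vale.Agent.P247E.R

open Vale.Agent.P204.GX Vale.Agent.P204.T4
open Vale.Agent.P247.H74 (e)
open Vale.Agent.P247.H647 (Sp En sig pau pauM omM hat len jz symb cov P3 nz jf len_sq len_nonneg)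

theorem len_smul' {t : ℝ} (ht : 0 ≤ t) (v : Fin 3 → ℝ) : len (t • v) = t * len v := by
  rw [← sq_eq_sq₀ (len_nonneg _) (mul_nonneg ht (len_nonneg _)), mul_pow, len_sq, len_sq,
    Finset.mul_sum]
  exact Finset.sum_congr rfl fun k _ => by rw [Pi.smul_apply, smul_eq_mul, mul_pow]

theorem dot_le (a b : Fin 3 → ℝ) : ∑ k, a k * b k ≤ len a * len b :=
  Real.sum_mul_le_sqrt_mul_sqrt _ _ _

theorem len_spin (ψ : Sp) : len (spin ψ) = ‖ψ‖ ^ 2 := by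
  rw [len, spin_sq, Real.sqrt_sq (sq_nonneg _)]

theorem norm_E3_sq (v : Fin 3 → ℝ) : ‖E3 v‖ ^ 2 = ∑ k, v k ^ 2 := by
  rw [← sum_vec_sq, Fin.sum_univ_succ, vec_E3_zero]
  simp only [vec_E3_succ]
  ring

theorem vec_ext {v w : Sp} (h : ∀ c, vec v c = vec w c) : v = w := by
  have h1 : vec (v - w) = 0 := by
    have := vecL.map_sub v w
    funext c
    exact (congrFun this c).trans (sub_eq_zero.2 (h c))
  have h2 := sum_vec_sq (v - w)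
  rw [h1] at h2
  simp only [Pi.zero_apply, ne_eq, OfNat.ofNat_ne_zero, not_false_eq_true, zero_pow,
    Finset.sum_const_zero] at h2
  exact sub_eq_zero.1 (norm_eq_zero.1 (pow_eq_zero_iff two_ne_zero |>.1 h2.symm))

/-- the pointwise inequality -/
theorem apr_pw {B r K l R E : ℝ} {P : Fin 4 → Sp} {ψ ζ : Sp} {ν F : Fin 3 → ℝ} (hR : 0 < R)
    (hlR : l ≤ R ^ 2) (hζ : ‖ζ‖ ≤ B * ‖ψ‖) (hD : ∑ c, sig c (P c) + ζ = 0) (hν : len ν ≤ r)
    (hF : ∀ k, F k = ν k - 1 / 2 * qT R ψ k) (hE : |E| ≤ K * (√(∑ c, ‖P c‖ ^ 2) * ‖ψ‖))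
    (hl : l = 4 * (B ^ 2 + r + K ^ 2 / 2 + 1)) :
    (∑ c, ‖P c‖ ^ 2) / 2 + ‖E3 (qT R ψ)‖ ^ 2 / 4 + ‖ψ‖ ^ 2 - l ^ 2 / 16 ≤
      ∑ c, ‖P c‖ ^ 2 - ‖∑ c, sig c (P c)‖ ^ 2 - ∑ k, spin ψ k * F k + E := by
  have g0 := (gq_pos hR (‖ψ‖ ^ 2)).le
  have g1 := gq_le_one hR (‖ψ‖ ^ 2)
  have g2 := gq_cases hR (‖ψ‖ ^ 2)
  have a0 : ∀ k, qT R ψ k = gq R (‖ψ‖ ^ 2) * spin ψ k := fun k => rfl
  have a1 : ‖∑ c, sig c (P c)‖ ^ 2 ≤ B ^ 2 * ‖ψ‖ ^ 2 := by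
    rw [eq_neg_of_add_eq_zero_left hD, norm_neg, ← mul_pow]
    exact pow_le_pow_left₀ (norm_nonneg _) hζ 2
  have a2 : ‖E3 (qT R ψ)‖ ^ 2 = gq R (‖ψ‖ ^ 2) ^ 2 * (‖ψ‖ ^ 2) ^ 2 := by
    rw [norm_E3_sq, ← spin_sq, Finset.mul_sum]
    exact Finset.sum_congr rfl fun k _ => by rw [a0, mul_pow]
  have a3 : ∑ k, spin ψ k * F k =
      ∑ k, spin ψ k * ν k - 1 / 2 * gq R (‖ψ‖ ^ 2) * (‖ψ‖ ^ 2) ^ 2 := by
    rw [← spin_sq, Finset.mul_sum, ← Finset.sum_sub_distrib]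
    exact Finset.sum_congr rfl fun k _ => by rw [hF, a0]; ring
  have a4 : ∑ k, spin ψ k * ν k ≤ ‖ψ‖ ^ 2 * r :=
    (dot_le _ _).trans (by rw [len_spin]; exact mul_le_mul_of_nonneg_left hν (sq_nonneg _))
  have a5 := Real.sq_sqrt (show 0 ≤ ∑ c, ‖P c‖ ^ 2 from Finset.sum_nonneg fun _ _ => sq_nonneg _)
  have a6 := (abs_le.1 hE).1
  rw [a2, a3]
  generalize √(∑ c, ‖P c‖ ^ 2) = n at *
  generalize gq R (‖ψ‖ ^ 2) = g at *
  have a7 : K * (n * ‖ψ‖) ≤ n ^ 2 / 2 + K ^ 2 / 2 * ‖ψ‖ ^ 2 := by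
    nlinarith [sq_nonneg (n - K * ‖ψ‖)]
  have t0 : 0 ≤ ‖ψ‖ ^ 2 := sq_nonneg _
  generalize ‖ψ‖ ^ 2 = t at *
  have a8 : g ^ 2 * t ^ 2 ≤ g * t ^ 2 :=
    mul_le_mul_of_nonneg_right (by nlinarith) (sq_nonneg _)
  have a9 : l * t - l ^ 2 / 4 ≤ g * t ^ 2 := by
    rcases g2 with h | h
    · rw [h.2]; nlinarith [sq_nonneg (t - l / 2)]
    · have : g * t ^ 2 = R ^ 2 * t := by rw [← h.2]; ring
      have := mul_le_mul_of_nonneg_right hlR t0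
      nlinarith [sq_nonneg l]
  have a10 : l * t = 4 * (B ^ 2 * t + t * r + K ^ 2 / 2 * t + t) := by rw [hl]; ring
  linarith

variable {X : Type} [MetricSpace X] [CompactSpace X] [ConnectedSpace X] [MeasurableSpace X]
  [BorelSpace X] {Q : QM X} {L : LBc Q.toCM} {H : Op Q.t1 Q.t0} {B : ℝ}
  {Z : (Fin 3 → ℝ) → X → En}

theorem len_nu (hZ : ZFam Q B Z) (c : Fin 3 → ℝ) (x : X) :
    B⁻¹ * len c ≤ len (Q.nu c x) ∧ len (Q.nu c x) ≤ B * len c := by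
  have h1 : ∀ u, len u = 1 → B⁻¹ ≤ len (Q.nu u x) ∧ len (Q.nu u x) ≤ B := fun u hu => by
    obtain ⟨s⟩ := hZ.eig u hu.ge
    rw [hu, inv_one, one_smul] at s
    exact ⟨s.lam_ge x, s.lam_le x⟩
  rcases (len_nonneg c).eq_or_lt with h | h
  · have h2 : c = (0 : ℝ) • c := by
      funext k
      have := P247.H647.abs_le_len c k
      rw [← h] at this
      simpa using this
    have h3 : Q.nu c x = (0 : ℝ) • Q.nu c x := by
      funext k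
      conv_lhs => rw [h2, nu_smul]
      rfl
    rw [h3, len_smul' le_rfl, ← h]
    simp
  · have h2 := h1 ((len c)⁻¹ • c) (by rw [len_smul' (inv_pos.2 h).le, inv_mul_cancel₀ h.ne'])
    have h3 : Q.nu c x = len c • Q.nu ((len c)⁻¹ • c) x := by
      funext k
      rw [Pi.smul_apply, nu_smul, smul_eq_mul, mul_inv_cancel_left₀ h.ne']
    rw [h3, len_smul' h.le, mul_comm B⁻¹, mul_comm B]
    exact ⟨mul_le_mul_of_nonneg_left h2.1 h.le, mul_le_mul_of_nonneg_left h2.2 h.le⟩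

theorem int_sq (f : LL2 Q.toCM Sp) : Integrable (fun x => ‖(f : X → Sp) x‖ ^ 2) Q.mu :=
  (Lp.memLp f).norm.integrable_sq

theorem apr1 (h2 : BQ2_statement) (hZ : ZFam Q B Z) :
    ∃ C : ℝ, ∀ R w φ c, 0 < R → WSol Q L H Z R w φ c → len c ≤ C * ‖w‖ ^ 2 := by
  have hV : 0 < Q.mu.real univ :=
    ENNReal.toReal_pos (isOpen_univ.measure_pos Q.mu univ_nonempty).ne' (measure_ne_top _ _)
  have hB := hZ.pos
  refine ⟨B ^ 3 / (2 * Q.mu.real univ) * ‖L.bp.J‖ ^ 2, fun R w φ c hR hw => ?_⟩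
  have n0 := nul_mean BQ1 h2 hw.mean c
  have i1 := (int_sq (L.bp.J w)).const_mul (B * len c / 2)
  have k1 : ∫ x, ((B⁻¹ * len c) ^ 2 - B * len c / 2 * ‖ps w x‖ ^ 2) ∂Q.mu ≤ 0 := by
    rw [← n0.2]
    refine integral_mono_ae ((integrable_const _).sub i1) n0.1 ?_
    filter_upwards [hw.curv] with x hx
    obtain ⟨a1, a2⟩ := len_nu hZ c x
    have a3 : ∑ k, Q.nu c x k * Q.Fa L H φ x k = len (Q.nu c x) ^ 2 -
        1 / 2 * (gq R (‖ps w x‖ ^ 2) * ∑ k, Q.nu c x k * spin (ps w x) k) := by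
      rw [len_sq, Finset.mul_sum, Finset.mul_sum, ← Finset.sum_sub_distrib]
      exact Finset.sum_congr rfl fun k _ => by rw [hx, qT, spin]; ring
    have a4 : gq R (‖ps w x‖ ^ 2) * ∑ k, Q.nu c x k * spin (ps w x) k ≤
        1 * (B * len c * ‖ps w x‖ ^ 2) := by
      refine (mul_le_mul_of_nonneg_left (dot_le _ _) (gq_pos hR _).le).trans ?_
      rw [len_spin]
      exact mul_le_mul (gq_le_one hR _) (mul_le_mul_of_nonneg_right a2 (sq_nonneg _))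
        (mul_nonneg (len_nonneg _) (sq_nonneg _)) zero_le_one
    have a5 := pow_le_pow_left₀ (mul_nonneg (inv_pos.2 hB).le (len_nonneg _)) a1 2
    rw [a3]
    linarith
  rw [integral_sub (integrable_const _) i1, integral_const, integral_const_mul, ← norm_sq_L2,
    smul_eq_mul] at k1
  have k2 : ‖L.bp.J w‖ ^ 2 ≤ ‖L.bp.J‖ ^ 2 * ‖w‖ ^ 2 := by
    rw [← mul_pow]; exact pow_le_pow_left₀ (norm_nonneg _) (L.bp.J.le_opNorm w) 2
  generalize Q.mu.real univ = V at *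
  rcases (len_nonneg c).eq_or_lt with h | h
  · rw [← h]; positivity
  · have k3 : len c ≤ B ^ 3 / (2 * V) * ‖L.bp.J w‖ ^ 2 := by
      rw [div_mul_eq_mul_div, le_div_iff₀ (by positivity)]
      have : len c * (len c * (2 * V)) ≤ len c * (B ^ 3 * ‖L.bp.J w‖ ^ 2) := by
        have e1 : len c * (len c * (2 * V)) = 2 * B ^ 2 * (V * (B⁻¹ * len c) ^ 2) := by
          field_simp
        have e2 : len c * (B ^ 3 * ‖L.bp.J w‖ ^ 2) =
          2 * B ^ 2 * (B * len c / 2 * ‖L.bp.J w‖ ^ 2) := by ring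
        rw [e1, e2]
        exact mul_le_mul_of_nonneg_left (by linarith) (by positivity)
      exact le_of_mul_le_mul_left this h
    rw [mul_assoc]
    exact k3.trans (mul_le_mul_of_nonneg_left k2 (by positivity))

/-- the total Weitzenböck identity -/
theorem nul_weitz (hS : ST1_statement) (hH : Q.IsHod H) (L : LBc Q.toCM) : ∃ K : ℝ,
    ∀ (w : L.bp.H1) (φ : Q.t1.H1), ∃ E : X → ℝ,
      (∀ x, |E x| ≤ K * (√(∑ c, ‖L.nabA w (Q.av φ) x c‖ ^ 2) * ‖ps w x‖)) ∧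
      Nul Q.mu fun x => ∑ c, ‖L.nabA w (Q.av φ) x c‖ ^ 2 -
        ‖∑ c, sig c (L.nabA w (Q.av φ) x c)‖ ^ 2 - ∑ k, spin (ps w x) k * Q.Fa L H φ x k + E x := by
  obtain ⟨hb, -, -, -, -, -, S, hS1, hS2⟩ := BQ1 X Q L
  obtain ⟨C, hC1, hC⟩ := exists_T_le Q
  let h : Fin 2 → Fin 2 → Fin 3 → X → ℂ := fun p q j x => ∑ k, pauM k p q * (S k j x : ℂ)
  have hs : ∀ p q j, SmF Q.toCM (h p q j) := fun p q j a =>
    ContDiff.sum fun k _ => contDiff_const.mul (Complex.ofRealCLM.contDiff.comp (hS1 k j a))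
  have hz : ∀ p q x k, ∑ j, h p q j x * (Q.T x j k : ℂ) = pauM k p q := by
    intro p q x k
    have a1 : ∀ k', ∑ j, (S k' j x : ℂ) * (Q.T x j k : ℂ) = if k' = k then 1 else 0 := by
      intro k'
      have := congrArg (fun t : ℝ => (t : ℂ)) (hS2 x k' k)
      push_cast at this
      rw [this]; split_ifs <;> simp
    simp only [h, Finset.sum_mul, mul_assoc]
    rw [Finset.sum_comm]
    simp only [← Finset.mul_sum, a1]
    simp
  choose D hD using fun i : Fin 2 × Fin 2 × Fin 3 => (hb ℂ _ (hs i.1 i.2.1 i.2.2)).2.2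
  have hD' : ∀ p q j x c, ‖df Q.toCM (h p q j) x c‖ ≤ ‖D‖ := fun p q j x c =>
    (hD (p, q, j) x c).2.trans ((le_abs_self _).trans (norm_le_pi_norm D (p, q, j)))
  refine ⟨4 * (72 * C * ‖D‖), fun w φ => ?_⟩
  have hzf : ∀ p x, zf w φ (fun _ => eS p) x = fun c => L.nabA w (Q.av φ) x c p := by
    intro p x; funext c
    rw [zf, df_const, inner_zero_left, add_zero, inner_eS]
  refine ⟨fun x => ∑ p, ∑ q, er w φ (fun _ => eS p) (fun _ => eS q) (h p q) x, fun x => ?_, ?_⟩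
  · have a1 : ∀ p q, |er w φ (fun _ => eS p) (fun _ => eS q) (h p q) x| ≤
        72 * C * ‖D‖ * (√(∑ c, ‖L.nabA w (Q.av φ) x c‖ ^ 2) * ‖ps w x‖) := by
      intro p q
      refine (er_le w φ _ _ (hC x) fun j c => hD' p q j x c).trans ?_
      refine mul_le_mul_of_nonneg_left (mul_le_mul ?_ ?_ (norm_nonneg _) (Real.sqrt_nonneg _))
        (by positivity)
      · rw [hzf]
        exact Real.sqrt_le_sqrt (Finset.sum_le_sum fun c _ =>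
          pow_le_pow_left₀ (norm_nonneg _) (PiLp.norm_apply_le _ p) 2)
      · rw [inner_eS]; exact PiLp.norm_apply_le _ q
    refine (Finset.abs_sum_le_sum_abs _ _).trans ((Finset.sum_le_sum fun p _ =>
      (Finset.abs_sum_le_sum_abs _ _).trans (Finset.sum_le_sum fun q _ => a1 p q)).trans
      (le_of_eq ?_))
    simp
    ring
  · refine (nul_sum fun p => nul_sum fun q => nul_pol BQ1 hS hH w φ (smf_const _ (eS p))
      (smf_const _ (eS q)) (hs p q) (z := fun _ k => pauM k p q) (hz p q)).congr fun x => ?_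
    simp only [hzf, inner_eS, Finset.sum_add_distrib, Finset.sum_sub_distrib]
    rw [weitz_pw fun c => L.nabA w (Q.av φ) x c]
    congr 2
    simp only [← spin_eq, Finset.sum_mul]
    rw [Finset.sum_comm (s := (Finset.univ : Finset (Fin 3)))]
    exact Finset.sum_congr rfl fun p _ => Finset.sum_comm

theorem le_of_sq {a M : ℝ} (hM : 1 ≤ M) (h : a ^ 2 ≤ M) : a ≤ M := by nlinarith [sq_nonneg (a - 1)]

theorem apr_int (hS : ST1_statement) (hK : KATO_statement) (hH : Q.IsHod H) (hZ : ZFam Q B Z)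
    (r : ℝ) : ∃ M R₀ : ℝ, ∀ R w φ c (hR : 0 < R), R₀ ≤ R → WSol Q L H Z R w φ c → len c ≤ r →
      ‖L.bp.J w‖ ≤ M ∧ ‖nq Q hR (L.bp.J w)‖ ≤ M ∧ ‖J4 L.bp w‖ ≤ M := by
  obtain ⟨K, hK1⟩ := nul_weitz hS hH L
  obtain ⟨CK, hCK0, hCK⟩ := hK X Q L
  have hB := hZ.pos
  obtain ⟨l, hl⟩ : ∃ l, l = 4 * (B ^ 2 + B * r + K ^ 2 / 2 + 1) := ⟨_, rfl⟩
  obtain ⟨M, hM⟩ : ∃ M, M = 1 + l ^ 2 * Q.mu.real univ := ⟨_, rfl⟩
  have hV : 0 ≤ l ^ 2 * Q.mu.real univ := by positivity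
  have hM1 : 1 ≤ M := by linarith
  refine ⟨M + CK * M, |l| + 1, fun R w φ c hR hRl hw hc => ?_⟩
  obtain ⟨E, hE, n0⟩ := hK1 w φ
  have ha : MemLp (Q.av φ) 4 Q.mu := vecL.comp_memLp' (memLp4 Q.t1 φ)
  obtain ⟨k1, k2⟩ := hCK w (Q.av φ) ha
  have i1 : Integrable (fun x => ∑ c, ‖L.nabA w (Q.av φ) x c‖ ^ 2) Q.mu :=
    integrable_finsetSum _ fun c _ => (k1 c).norm.integrable_sq
  have i2 := int_sq (nq Q hR (L.bp.J w))
  have i3 := int_sq (L.bp.J w)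
  have hζ : ∀ x, ‖Z c x (ps w x)‖ ≤ B * ‖ps w x‖ := fun x => (Z c x).le_of_opNorm_le (hZ.bd c x) _
  have j1 : Integrable (fun x => (∑ c, ‖L.nabA w (Q.av φ) x c‖ ^ 2) / 2 +
    ‖(nq Q hR (L.bp.J w) : X → Sp) x‖ ^ 2 / 4) Q.mu := (i1.div_const _).add (i2.div_const _)
  have j2 : Integrable (fun x => (∑ c, ‖L.nabA w (Q.av φ) x c‖ ^ 2) / 2 +
    ‖(nq Q hR (L.bp.J w) : X → Sp) x‖ ^ 2 / 4 + ‖ps w x‖ ^ 2) Q.mu := j1.add i3
  have hlR : l ≤ R ^ 2 := by nlinarith [le_abs_self l, abs_nonneg l]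
  have k3 : ∫ x, ((∑ c, ‖L.nabA w (Q.av φ) x c‖ ^ 2) / 2 +
      ‖(nq Q hR (L.bp.J w) : X → Sp) x‖ ^ 2 / 4 + ‖ps w x‖ ^ 2 - l ^ 2 / 16) ∂Q.mu ≤ 0 := by
    rw [← n0.2]
    refine integral_mono_ae (j2.sub (integrable_const _)) n0.1 ?_
    filter_upwards [hw.dirac, hw.curv, nq_ae hR (L.bp.J w)] with x a1 a2 a3
    rw [a3]
    exact apr_pw hR hlR (hζ x) a1
      ((len_nu hZ c x).2.trans (mul_le_mul_of_nonneg_left hc hB.le)) a2 (hE x) hl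
  rw [integral_sub j2 (integrable_const _), integral_add j1 i3,
    integral_add (i1.div_const _) (i2.div_const _), integral_div, integral_div, integral_const,
    ← norm_sq_L2, ← norm_sq_L2, smul_eq_mul] at k3
  have p1 : 0 ≤ ∫ x, ∑ c, ‖L.nabA w (Q.av φ) x c‖ ^ 2 ∂Q.mu :=
    integral_nonneg fun x => Finset.sum_nonneg fun _ _ => sq_nonneg _
  have p2 := sq_nonneg ‖nq Q hR (L.bp.J w)‖
  have p3 := sq_nonneg ‖L.bp.J w‖
  have p4 : 0 ≤ CK * M := by positivity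
  have p5 : M ≤ M ^ 2 := by nlinarith
  have b1 : ‖L.bp.J w‖ ≤ M := le_of_sq hM1 (by linarith)
  have b2 : ‖nq Q hR (L.bp.J w)‖ ≤ M := le_of_sq hM1 (by linarith)
  have b3 : ‖J4 L.bp w‖ ≤ CK * M := by
    rw [norm_J4]
    refine ENNReal.toReal_le_of_le_ofReal p4 (k2 M (by linarith) ?_)
    rw [integral_add i1 i3, ← norm_sq_L2]
    linarith
  exact ⟨by linarith, by linarith, by linarith⟩

theorem hod_eq (h2 : BQ2_statement) {R : ℝ} (hR : 0 < R) {w : L.bp.H1} {φ : Q.t1.H1}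
    {c : Fin 3 → ℝ} (hw : WSol Q L H Z R w φ c) :
    H.clm φ = sg Q c - (1 / 2 : ℝ) • nq Q hR (L.bp.J w) - F0 h2 L := by
  refine Lp.ext ?_
  filter_upwards [Lp.coeFn_sub (sg Q c - (1 / 2 : ℝ) • nq Q hR (L.bp.J w)) (F0 h2 L),
    sub_ae hR c (L.bp.J w), F0_ae h2 L, hw.div, hw.curv] with x a1 a2 a3 a4 a5
  rw [a1, Pi.sub_apply, a2, a3, ← map_sub]
  refine vec_ext fun d => Fin.cases ?_ (fun k => ?_) d
  · rw [a4, vec_E3_zero]
  · have := a5 k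
    rw [QM.Fa] at this
    rw [vec_E3_succ, Pi.sub_apply, Pi.sub_apply, Pi.smul_apply, smul_eq_mul]
    linarith

theorem dirac_le (h2 : BQ2_statement) (hZ : ZFam Q B Z) {R : ℝ} {w : L.bp.H1} {φ : Q.t1.H1}
    {c : Fin 3 → ℝ} (hw : WSol Q L H Z R w φ c) :
    ‖(Q.dirac L).clm w + K1 Q.t1 L.bp φ w‖ ≤ B * ‖L.bp.J w‖ := by
  obtain ⟨-, -, -, -, -, -, -, -, -, -, -, hD⟩ := h2 X Q L
  refine Lp.norm_le_mul_norm_of_ae_le_mul ?_
  filter_upwards [Lp.coeFn_add ((Q.dirac L).clm w) (K1 Q.t1 L.bp φ w), hD w,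
    K1_ae Q.t1 L.bp φ w, hw.dirac] with x a1 a2 a3 a4
  rw [a1, Pi.add_apply, a2, a3, cl_apply]
  simp only [LBc.nabA, QM.av, map_sub, Finset.sum_sub_distrib] at a4
  rw [← sub_eq_add_neg, eq_neg_of_add_eq_zero_left a4, norm_neg]
  exact (Z c x).le_of_opNorm_le (hZ.bd c x) _

theorem apr2 (h2 : BQ2_statement) (hS : ST1_statement) (hK : KATO_statement)
    {G : LL2 Q.toCM Sp →L[ℝ] Q.t1.H1} (hH : Q.IsHod H) (hG : IsGreen Q H G) (hZ : ZFam Q B Z)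
    (r : ℝ) : ∃ ρ₀ R₀ : ℝ, ∀ R w φ c, 0 < R → R₀ ≤ R → WSol Q L H Z R w φ c → len c ≤ r →
      ‖w‖ ≤ ρ₀ := by
  obtain ⟨M, R₀, hM⟩ := apr_int (L := L) hS hK hH hZ r
  obtain ⟨CG, hCG0, hCG⟩ := gar X Q.toCM Sp Sp L.bp (Q.bm L) (Q.dirac L)
    (h2 X Q L).2.2.2.2.2.2.2.2.2.1.gar
  refine ⟨CG * (B * M + ‖cl‖ * (‖J4 Q.t1‖ * (‖G‖ * (‖sg Q‖ * r + M + ‖F0 h2 L‖))) * M + M),
    R₀, fun R w φ c hR hRl hw hc => ?_⟩
  obtain ⟨b1, b2, b3⟩ := hM R w φ c hR hRl hw hc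
  have hr : 0 ≤ r := (len_nonneg c).trans hc
  have b4 : ‖H.clm φ‖ ≤ ‖sg Q‖ * r + M + ‖F0 h2 L‖ := by
    have e2 : ‖c‖ ≤ r := (pi_norm_le_iff_of_nonneg hr).2 fun k =>
      (P247.H647.abs_le_len c k).trans hc
    have e3 := (sg Q).le_opNorm_of_le e2
    rw [hod_eq h2 hR hw]
    refine (norm_sub_le _ _).trans (add_le_add_left ((norm_sub_le _ _).trans ?_) _)
    rw [norm_smul, Real.norm_of_nonneg (by norm_num)]
    linarith [norm_nonneg (nq Q hR (L.bp.J w))]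
  have b5 : ‖J4 Q.t1 φ‖ ≤ ‖J4 Q.t1‖ * (‖G‖ * (‖sg Q‖ * r + M + ‖F0 h2 L‖)) := by
    refine (J4 Q.t1).le_opNorm_of_le ?_
    conv_lhs => rw [← hG.left φ]
    exact G.le_opNorm_of_le b4
  generalize ‖J4 Q.t1‖ * (‖G‖ * (‖sg Q‖ * r + M + ‖F0 h2 L‖)) = N at b5 ⊢
  have b6 : ‖K1 Q.t1 L.bp φ w‖ ≤ ‖cl‖ * N * M :=
    (norm_K1_le _ _ _ _).trans (mul_le_mul (mul_le_mul_of_nonneg_left b5 cl.opNorm_nonneg) b3
      (norm_nonneg _) (mul_nonneg cl.opNorm_nonneg ((norm_nonneg _).trans b5)))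
  have b7 := dirac_le h2 hZ hw
  have b8 : ‖(Q.dirac L).clm w‖ ≤ ‖(Q.dirac L).clm w + K1 Q.t1 L.bp φ w‖ + ‖K1 Q.t1 L.bp φ w‖ :=
    norm_le_add_norm_add _ _
  have b9 := mul_le_mul_of_nonneg_left b1 hZ.pos.le
  exact (hCG w).trans (mul_le_mul_of_nonneg_left
    (add_le_add (b8.trans (add_le_add (b7.trans b9) b6)) b1) hCG0.le)

theorem APR (h2 : BQ2_statement) (hS : ST1_statement) (hK : KATO_statement) : APR_statement :=
  fun _ _ _ _ _ _ _ _ _ _ _ _ hH hG hZ => ⟨apr1 h2 hZ, apr2 h2 hS hK hH hG hZ⟩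

end Vale.Agent.P247E.R
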