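import Vale.Agent.P247E.R.Van
import Vale.Agent.P247E.Htp
import Vale.Agent.P247E.Bq1

/-!
# P247E, block R: the operators of the nonlinear system
-/

set_option linter.all false

open scoped ContDiff Topology ENNReal NNReal ComplexConjugate
open Set MeasureTheory Filter Metric

noncomputable section

namespace Vale.Agent.P247E.R

open Vale.Agent.P204.GX Vale.Agent.P204.T4
open Vale.Agent.P247.H74 (e)
open Vale.Agent.P247.H647 (Sp En sig pau pauM omM hat len jz symb cov P3 nz jf)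

/-! ## Constant algebra -/

theorem vec_fin (φ : Sp) : vec φ = ![(φ 0).re, (φ 1).im, -(φ 1).re, (φ 0).im] := by
  funext c
  fin_cases c <;> simp [vec, s0, P247.H647.inner_sp, P247.H647.sig_fin]

theorem vec_spn (t : V4) : vec (spn t) = t := by
  rw [vec_fin]
  funext c
  fin_cases c <;> simp [spn, sgm_fin, s0]

theorem sum_vec_sq (v : Sp) : ∑ c, vec v c ^ 2 = ‖v‖ ^ 2 := by
  rw [vec_fin, P247.H647.norm_sq_sp, nsq, nsq, Fin.sum_univ_four]
  simp
  ring

theorem inner_vec (v w : Sp) : inner ℝ v w = ∑ c, vec v c * vec w c := by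
  rw [vec_fin, vec_fin, PiLp.inner_apply, Fin.sum_univ_two, Fin.sum_univ_four]
  simp [Complex.inner]
  ring

theorem vec_add (v w : Sp) : vec (v + w) = vec v + vec w := by
  funext c; simp [vec, inner_add_right]

theorem vec_smul (t : ℝ) (v : Sp) : vec (t • v) = t • vec v := by
  rw [vec_fin, vec_fin]
  funext c
  fin_cases c <;> simp

/-- `vec` as a continuous linear map -/
def vecL : Sp →L[ℝ] V4 :=
  LinearMap.toContinuousLinearMap { toFun := vec, map_add' := vec_add, map_smul' := vec_smul }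

/-- the spinor with components `(0, v)` -/
def E3 : (Fin 3 → ℝ) →L[ℝ] Sp :=
  LinearMap.toContinuousLinearMap
    { toFun := fun v => spn (Fin.cons 0 v)
      map_add' := fun v w => by
        have : (Fin.cons 0 (v + w) : V4) = Fin.cons 0 v + Fin.cons 0 w := by
          funext c; refine Fin.cases ?_ (fun k => ?_) c <;> simp
        simp only [spn, this]; erw [sgm_add]; rfl
      map_smul' := fun t v => by
        have : (Fin.cons 0 (t • v) : V4) = t • Fin.cons 0 v := by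
          funext c; refine Fin.cases ?_ (fun k => ?_) c <;> simp
        simp only [spn, this]; erw [sgm_smul]; rfl }

theorem vec_E3_zero (v : Fin 3 → ℝ) : vec (E3 v) 0 = 0 := by
  show vec (spn (Fin.cons 0 v)) 0 = 0
  rw [vec_spn]; rfl

theorem vec_E3_succ (v : Fin 3 → ℝ) (k : Fin 3) : vec (E3 v) k.succ = v k := by
  show vec (spn (Fin.cons 0 v)) k.succ = v k
  rw [vec_spn]; rfl

theorem inner_E3 (v : Fin 3 → ℝ) (w : Sp) : inner ℝ (E3 v) w = ∑ k, v k * vec w k.succ := by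
  rw [inner_vec, Fin.sum_univ_succ, vec_E3_zero, zero_mul, zero_add]
  simp only [vec_E3_succ]

/-- Clifford multiplication by `-i vec v` -/
def cl : Sp →L[ℝ] Sp →L[ℝ] Sp :=
  reL.comp ((ContinuousLinearMap.lsmul ℝ ℂ (-Complex.I) : En →L[ℝ] En).comp (sgmL.comp vecL))

theorem cl_eq (v : Sp) : cl v = reL ((-Complex.I) • sgm (vec v)) := rfl

theorem cl_apply (v ψ : Sp) : cl v ψ = -∑ d, sig d ((Complex.I * (vec v d : ℂ)) • ψ) := by
  show (-Complex.I) • sgm (vec v) ψ = _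
  rw [sgm_apply, Finset.smul_sum, ← Finset.sum_neg_distrib]
  refine Finset.sum_congr rfl fun d _ => ?_
  rw [map_smul, smul_smul, ← neg_smul, neg_mul]

theorem norm_pau (k : Fin 3) (f : Sp) : ‖pau k f‖ = ‖f‖ := by
  rw [P247.H647.pau_eq, P247.H647.norm_P3]
  have : len (Pi.single k 1) = 1 := by
    rw [len]; simp [Pi.single_apply, ite_pow]
  rw [this, one_mul]

theorem spin_sub_le (ψ χ : Sp) (k : Fin 3) :
    |spin ψ k - spin χ k| ≤ (‖ψ‖ + ‖χ‖) * ‖ψ - χ‖ := by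
  have h : spin ψ k - spin χ k =
      (inner ℂ (ψ - χ) (pau k ψ)).re + (inner ℂ χ (pau k (ψ - χ))).re := by
    simp only [spin, map_sub, inner_sub_left, inner_sub_right, Complex.sub_re]; ring
  rw [h]
  refine (abs_add_le _ _).trans ?_
  have h1 := (Complex.abs_re_le_norm _).trans (norm_inner_le_norm (𝕜 := ℂ) (ψ - χ) (pau k ψ))
  have h2 := (Complex.abs_re_le_norm _).trans (norm_inner_le_norm (𝕜 := ℂ) χ (pau k (ψ - χ)))
  rw [norm_pau] at h1 h2
  linarith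

/-- the radial retraction -/
def ret (R : ℝ) (ψ : Sp) : Sp := ((R / max ‖ψ‖ R : ℝ) : ℂ) • ψ

theorem norm_ret {R : ℝ} (hR : 0 < R) (ψ : Sp) : ‖ret R ψ‖ ≤ R := by
  have h0 : 0 < max ‖ψ‖ R := lt_of_lt_of_le hR (le_max_right _ _)
  rw [ret, norm_smul, Complex.norm_real, Real.norm_of_nonneg (by positivity), div_mul_eq_mul_div,
    div_le_iff₀ h0]
  exact mul_le_mul_of_nonneg_left (le_max_left _ _) hR.le

theorem ret_sub {R : ℝ} (hR : 0 < R) (ψ χ : Sp) : ‖ret R ψ - ret R χ‖ ≤ 2 * ‖ψ - χ‖ := by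
  have h0 : 0 < max ‖ψ‖ R := lt_of_lt_of_le hR (le_max_right _ _)
  have h1 : 0 < max ‖χ‖ R := lt_of_lt_of_le hR (le_max_right _ _)
  have h2 : |max ‖ψ‖ R - max ‖χ‖ R| ≤ ‖ψ - χ‖ :=
    (abs_max_sub_max_le_abs _ _ _).trans (abs_norm_sub_norm_le _ _)
  have h3 : R / max ‖ψ‖ R ≤ 1 := (div_le_one h0).2 (le_max_right _ _)
  have h4 : ‖χ‖ / max ‖χ‖ R ≤ 1 := (div_le_one h1).2 (le_max_left _ _)
  unfold ret
  generalize max ‖ψ‖ R = m at *
  generalize max ‖χ‖ R = m' at *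
  have e1 : ((R / m : ℝ) : ℂ) • ψ - ((R / m' : ℝ) : ℂ) • χ =
      ((R / m : ℝ) : ℂ) • (ψ - χ) + ((R / m - R / m' : ℝ) : ℂ) • χ := by
    push_cast; module
  rw [e1]
  refine (norm_add_le _ _).trans ?_
  rw [norm_smul, norm_smul, Complex.norm_real, Complex.norm_real,
    Real.norm_of_nonneg (by positivity), Real.norm_eq_abs]
  have e2 : |R / m - R / m'| * ‖χ‖ = (R / m) * (‖χ‖ / m') * |m - m'| := by
    have : R / m - R / m' = (R / (m * m')) * (m' - m) := by field_simp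
    rw [this, abs_mul, abs_of_pos (by positivity), abs_sub_comm]
    field_simp
  have e3 : (R / m) * (‖χ‖ / m') ≤ 1 := mul_le_one₀ h3 (by positivity) h4
  have e4 : (R / m) * (‖χ‖ / m') * |m - m'| ≤ 1 * ‖ψ - χ‖ :=
    mul_le_mul e3 h2 (abs_nonneg _) zero_le_one
  have e5 : R / m * ‖ψ - χ‖ ≤ 1 * ‖ψ - χ‖ := mul_le_mul_of_nonneg_right h3 (norm_nonneg _)
  linarith

theorem qT_eq {R : ℝ} (hR : 0 < R) (ψ : Sp) (k : Fin 3) : qT R ψ k = spin (ret R ψ) k := by
  have h1 : max (‖ψ‖ ^ 2) (R ^ 2) = max ‖ψ‖ R ^ 2 := by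
    rcases le_total ‖ψ‖ R with h | h
    · rw [max_eq_right h, max_eq_right (pow_le_pow_left₀ (norm_nonneg _) h 2)]
    · rw [max_eq_left h, max_eq_left (pow_le_pow_left₀ hR.le h 2)]
  rw [qT, gq, h1, spin, ret, map_smul, inner_smul_left, inner_smul_right, Complex.conj_ofReal,
    Complex.re_ofReal_mul, Complex.re_ofReal_mul]
  ring

theorem qT_lip {R : ℝ} (hR : 0 < R) : LipschitzWith (4 * R).toNNReal (qT R) := by
  refine LipschitzWith.of_dist_le_mul fun ψ χ => ?_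
  rw [Real.coe_toNNReal _ (by positivity), dist_eq_norm, dist_eq_norm]
  refine (pi_norm_le_iff_of_nonneg (by positivity)).2 fun k => ?_
  rw [Pi.sub_apply, qT_eq hR, qT_eq hR, Real.norm_eq_abs]
  refine (spin_sub_le _ _ k).trans ?_
  calc _ ≤ (R + R) * (2 * ‖ψ - χ‖) := mul_le_mul (add_le_add (norm_ret hR ψ) (norm_ret hR χ))
        (ret_sub hR ψ χ) (norm_nonneg _) (by positivity)
    _ = _ := by ring

theorem qT_zero (R : ℝ) : qT R 0 = 0 := by funext k; simp [qT]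

theorem qT_neg (R : ℝ) (ψ : Sp) : qT R (-ψ) = qT R ψ := by funext k; simp [qT]

/-! ## Compact families -/

theorem cpt_family {H₁ H₂ Y : Type} [NormedAddCommGroup H₁] [NormedSpace ℝ H₁]
    [NormedAddCommGroup H₂] [NormedSpace ℝ H₂] [CompleteSpace H₂] [TopologicalSpace Y] {S : Set Y}
    (hS : IsCompact S) {A : Y → H₁ →L[ℝ] H₂} (hA : Continuous A)
    (hc : ∀ y, IsCompactOperator (A y)) :
    ∃ T : Set H₂, IsCompact T ∧ ∀ y ∈ S, ∀ w, ‖w‖ ≤ 1 → A y w ∈ T := by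
  have tb : TotallyBounded {z | ∃ y ∈ S, ∃ w, ‖w‖ ≤ 1 ∧ A y w = z} := by
    refine Metric.totallyBounded_iff.2 fun ε hε => ?_
    obtain ⟨t, ht1, ht2, ht3⟩ := (hS.image hA).finite_cover_balls (half_pos hε)
    have h1 : ∀ B ∈ t, ∃ u : Set H₂, u.Finite ∧ B '' closedBall 0 1 ⊆ ⋃ z ∈ u, ball z (ε / 2) := by
      intro B hB
      obtain ⟨y, -, rfl⟩ := ht1 hB
      obtain ⟨K, hK, hK'⟩ := IsCompactOperator.image_closedBall_subset_compact
        (f := (A y : H₁ →ₗ[ℝ] H₂)) (hc y) 1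
      obtain ⟨u, hu1, hu2⟩ := Metric.totallyBounded_iff.1 hK.totallyBounded _ (half_pos hε)
      exact ⟨u, hu1, hK'.trans hu2⟩
    choose! u hu1 hu2 using h1
    refine ⟨⋃ B ∈ t, u B, ht2.biUnion hu1, ?_⟩
    rintro _ ⟨y, hy, w, hw, rfl⟩
    obtain ⟨B, hB, hyB⟩ := mem_iUnion₂.1 (ht3 ⟨y, hy, rfl⟩)
    obtain ⟨z, hz, hzB⟩ := mem_iUnion₂.1 (hu2 B hB ⟨w, mem_closedBall_zero_iff.2 hw, rfl⟩)
    refine mem_iUnion₂.2 ⟨z, mem_iUnion₂.2 ⟨B, hB, hz⟩, ?_⟩
    have a1 : dist (A y w) (B w) ≤ ε / 2 := by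
      rw [dist_eq_norm, ← ContinuousLinearMap.sub_apply]
      refine ((A y - B).le_opNorm w).trans ?_
      rw [mem_ball, dist_eq_norm] at hyB
      nlinarith [norm_nonneg (A y - B), norm_nonneg w]
    rw [mem_ball] at hzB ⊢
    linarith [dist_triangle (A y w) (B w) z]
  exact ⟨_, (tb.closure).isCompact_of_isClosed isClosed_closure,
    fun y hy w hw => subset_closure ⟨y, hy, w, hw, rfl⟩⟩

/-! ## The embedding in `L⁴`, products -/

instance fact4 : Fact ((1 : ℝ≥0∞) ≤ 4) := ⟨by norm_num⟩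

instance ht442 : ENNReal.HolderTriple 4 4 2 := ⟨by
  rw [← two_mul, show (4 : ℝ≥0∞) = 2 * 2 by norm_num,
    ENNReal.mul_inv (by simp) (by simp), ← mul_assoc, ENNReal.mul_inv_cancel (by simp) (by simp),
    one_mul]⟩

variable {X : Type} [MetricSpace X] [CompactSpace X] [MeasurableSpace X] [BorelSpace X]
  {M : CM X}

theorem memLp4 (E : Bun M Sp) (w : E.H1) : MemLp (E.J w : X → Sp) 4 M.mu := by
  obtain ⟨C, -, hC⟩ := gn4 X M Sp Sp E E
  exact ⟨(Lp.memLp _).1, (hC w).trans_lt ENNReal.ofReal_lt_top⟩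

/-- the embedding `H¹ → L⁴` -/
def J4 (E : Bun M Sp) : E.H1 →L[ℝ] Lp Sp 4 M.mu :=
  LinearMap.mkContinuousOfExistsBound
    { toFun := fun w => (memLp4 E w).toLp
      map_add' := fun w w' => by
        rw [← MemLp.toLp_add]
        refine MemLp.toLp_congr _ _ ?_
        rw [map_add]; exact Lp.coeFn_add _ _
      map_smul' := fun t w => by
        rw [RingHom.id_apply, ← MemLp.toLp_const_smul]
        refine MemLp.toLp_congr _ _ ?_
        rw [map_smul]; exact Lp.coeFn_smul _ _ } (by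
    obtain ⟨C, hC0, hC⟩ := gn4 X M Sp Sp E E
    refine ⟨C, fun w => ?_⟩
    show ‖(memLp4 E w).toLp‖ ≤ _
    rw [Lp.norm_toLp]
    exact ENNReal.toReal_le_of_le_ofReal (by positivity) (hC w))

theorem J4_ae (E : Bun M Sp) (w : E.H1) : (J4 E w : X → Sp) =ᵐ[M.mu] (E.J w : X → Sp) :=
  (memLp4 E w).coeFn_toLp

theorem norm_J4 (E : Bun M Sp) (w : E.H1) :
    ‖J4 E w‖ = (eLpNorm (E.J w : X → Sp) 4 M.mu).toReal := Lp.norm_toLp _ (memLp4 E w)

/-- the product `(φ, w) ↦ cl (J φ) (J w)` -/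
def K1 (E E' : Bun M Sp) : E.H1 →L[ℝ] E'.H1 →L[ℝ] LL2 M Sp :=
  (cl.holderL M.mu 4 4 2).bilinearComp (J4 E) (J4 E')

theorem K1_ae (E E' : Bun M Sp) (φ : E.H1) (w : E'.H1) : (K1 E E' φ w : X → Sp) =ᵐ[M.mu]
    fun x => cl ((E.J φ : X → Sp) x) ((E'.J w : X → Sp) x) := by
  filter_upwards [cl.coeFn_holder (r := 2) (J4 E φ) (J4 E' w), J4_ae E φ, J4_ae E' w] with x h1 h2 h3
  rw [← h2, ← h3]
  exact h1

theorem norm_K1_le (E E' : Bun M Sp) (φ : E.H1) (w : E'.H1) :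
    ‖K1 E E' φ w‖ ≤ ‖cl‖ * ‖J4 E φ‖ * ‖J4 E' w‖ := cl.norm_holder_apply_apply_le _ _

theorem K1_cpt (E E' : Bun M Sp) (φ : E.H1) : IsCompactOperator (K1 E E' φ) := by
  refine E.H1_ind (p := fun φ => IsCompactOperator (K1 E E' φ))
    (isClosed_setOfPred_isCompactOperator.preimage (K1 E E').continuous) (fun φ s hs h => ?_) φ
  have hb : BM fun x => cl (s x) := (E.bm hs).lin cl
  have : K1 E E' φ = (mulOp M fun x => cl (s x)).comp E'.J := by
    ext1 w
    refine Lp.ext ?_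
    filter_upwards [K1_ae E E' φ w, h.J_ae, hb.mulOp_ae (E'.J w)] with x h1 h2 h3
    rw [h1, h2]
    exact h3.symm
  rw [this]
  exact (rel X M Sp Sp E' E').clm_comp _

theorem norm_sq_L2 (f : LL2 M Sp) : ‖f‖ ^ 2 = ∫ x, ‖f x‖ ^ 2 ∂M.mu := by
  rw [← real_inner_self_eq_norm_sq, L2.inner_def]
  simp only [real_inner_self_eq_norm_sq]

end Vale.Agent.P247E.R
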