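import Vale.Agent.P247.H647.Alg

/-!
# P247E, block R: pointwise algebra of the vanishing theorem
-/

set_option linter.all false

noncomputable section

namespace Vale.Agent.P247E.R

open Vale.Agent.P247.H647

/-- the spin vector -/
def spin (ψ : Sp) (k : Fin 3) : ℝ := (inner ℂ ψ (pau k ψ)).re

/-- the polarised Jacobian array -/
def jzR (ζ η : Fin 4 → ℂ) : Fin 4 → Fin 4 → ℝ := fun a c =>
  ((starRingEnd ℂ) (ζ a) * η c).im + ((starRingEnd ℂ) (η a) * ζ c).im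

/-- the mixed spin vector -/
def zz (f : Sp) (k : Fin 3) : ℂ := inner ℂ f (pau k (jf f))

theorem jz_add (ζ η : Fin 4 → ℂ) (a c : Fin 4) :
    jz (ζ + η) a c = jz ζ a c + jz η a c + 2 * jzR ζ η a c := by
  simp only [jz, jzR, Pi.add_apply, map_add, add_mul, mul_add, Complex.add_im]
  ring

theorem jz_sub (ζ η : Fin 4 → ℂ) (a c : Fin 4) :
    jz (ζ - η) a c = jz ζ a c + jz η a c - 2 * jzR ζ η a c := by
  simp only [jz, jzR, Pi.sub_apply, map_sub, sub_mul, mul_sub, Complex.sub_im]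
  ring

theorem jzR_add (ζ η η' : Fin 4 → ℂ) (a c : Fin 4) :
    jzR ζ (η + η') a c = jzR ζ η a c + jzR ζ η' a c := by
  simp only [jzR, Pi.add_apply, map_add, add_mul, mul_add, Complex.add_im]
  ring

theorem jzR_le (ζ η : Fin 4 → ℂ) (a c : Fin 4) : |jzR ζ η a c| ≤ 2 * (nz ζ * nz η) := by
  have h1 : ∀ (p q : Fin 4 → ℂ) (a c : Fin 4), |((starRingEnd ℂ) (p a) * q c).im| ≤ nz p * nz q := by
    intro p q a c
    refine (Complex.abs_im_le_norm _).trans ?_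
    rw [norm_mul, RCLike.norm_conj]
    exact mul_le_mul (norm_le_nz p a) (norm_le_nz q c) (norm_nonneg _) (nz_nonneg _)
  refine (abs_add_le _ _).trans ?_
  have := h1 ζ η a c
  have := h1 η ζ a c
  linarith

theorem hat_jzR_le (ζ η : Fin 4 → ℂ) (k : Fin 3) : |hat (jzR ζ η) k| ≤ 4 * (nz ζ * nz η) := by
  have h := jzR_le ζ η
  fin_cases k
  · exact (abs_add_le _ _).trans (by have := h 0 1; have := h 2 3; linarith)
  · exact (abs_add_le _ _).trans (by have := h 0 2; have := h 3 1; linarith)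
  · exact (abs_add_le _ _).trans (by have := h 0 3; have := h 1 2; linarith)

/-- the polarised Clifford identity -/
theorem alg_pol (ζ η : Fin 4 → ℂ) (f g : Sp) :
    ∑ k, hat (jzR ζ fun c => inner ℂ f (pau k g) * η c) k =
      ((∑ c, (starRingEnd ℂ) (ζ c) * η c) * inner ℂ f g).re -
        (inner ℂ (symb ζ f) (symb η g)).re := by
  rw [Fin.sum_univ_three, Fin.sum_univ_four]
  simp only [inner_sp, symb_fin, pau0_apply, pau1_apply, pau2_apply, hat, jzR]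
  simp only [Matrix.cons_val_zero, Matrix.cons_val_one, Matrix.cons_val, map_add, map_sub,
    map_mul, map_neg, Complex.conj_I, Complex.conj_conj]
  simp only [Complex.add_re, Complex.sub_re, Complex.mul_re, Complex.add_im, Complex.sub_im,
    Complex.mul_im, Complex.neg_re, Complex.neg_im, Complex.conj_re, Complex.conj_im,
    Complex.I_re, Complex.I_im]
  ring

theorem alg_diag (ζ : Fin 4 → ℂ) (f : Sp) :
    ∑ k, spin f k * hat (jz ζ) k = nz ζ ^ 2 * ‖f‖ ^ 2 - ‖symb ζ f‖ ^ 2 := by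
  have h := congrArg Complex.re (alg1 ζ f f)
  rw [Complex.re_sum, Complex.sub_re, inner_self_eq_norm_sq_to_K, inner_self_eq_norm_sq_to_K,
    ← nz_sq] at h
  simp only [Complex.re_ofReal_mul] at h
  have e1 : ∀ v : Sp, ((RCLike.ofReal ‖v‖ : ℂ) ^ 2).re = ‖v‖ ^ 2 := fun v => by
    have : (((‖v‖ : ℝ) : ℂ) ^ 2).re = ‖v‖ ^ 2 := by norm_cast
    exact this
  rw [e1, e1] at h
  rw [← h]
  exact Finset.sum_congr rfl fun k _ => mul_comm _ _

theorem nsq (z : ℂ) : ‖z‖ ^ 2 = z.re ^ 2 + z.im ^ 2 := by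
  rw [Complex.sq_norm, Complex.normSq_apply]; ring

theorem inner_jf (f : Sp) : inner ℂ f (jf f) = 0 := by
  rw [inner_sp, jf0, jf1]; ring

theorem norm_jf (f : Sp) : ‖jf f‖ ^ 2 = ‖f‖ ^ 2 := by
  rw [norm_sq_sp, norm_sq_sp, jf0, jf1, norm_neg, RCLike.norm_conj, RCLike.norm_conj, add_comm]

theorem spin_jf (f : Sp) (k : Fin 3) : spin (jf f) k = - spin f k := by
  fin_cases k <;>
    simp [spin, inner_sp, pau0_apply, pau1_apply, pau2_apply, jf0, jf1] <;> ring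

theorem spin_comb (f : Sp) (α β : ℂ) (k : Fin 3) : spin (α • f + β • jf f) k =
    (‖α‖ ^ 2 - ‖β‖ ^ 2) * spin f k + 2 * ((starRingEnd ℂ) α * (zz f k * β)).re := by
  rw [nsq, nsq]
  fin_cases k <;>
    simp [spin, zz, inner_sp, pau0_apply, pau1_apply, pau2_apply, jf0, jf1] <;> ring

theorem norm_comb (f : Sp) (α β : ℂ) :
    ‖α • f + β • jf f‖ ^ 2 = (‖α‖ ^ 2 + ‖β‖ ^ 2) * ‖f‖ ^ 2 := by
  rw [norm_sq_sp, norm_sq_sp]
  simp only [nsq, PiLp.add_apply, PiLp.smul_apply, smul_eq_mul, jf0, jf1]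
  simp
  ring

theorem spin_zz (f : Sp) (w : ℂ) : ∑ k, spin f k * (w * zz f k).re = 0 := by
  rw [Fin.sum_univ_three]
  simp [spin, zz, inner_sp, pau0_apply, pau1_apply, pau2_apply, jf0, jf1]
  ring

theorem zz_sq (f : Sp) (w : ℂ) : ∑ k, (w * zz f k).re ^ 2 = ‖w‖ ^ 2 * (‖f‖ ^ 2) ^ 2 := by
  rw [Fin.sum_univ_three, norm_sq_sp, nsq, nsq, nsq]
  simp [zz, inner_sp, pau0_apply, pau1_apply, pau2_apply, jf0, jf1]
  ring

theorem spin_sq (f : Sp) : ∑ k, spin f k ^ 2 = (‖f‖ ^ 2) ^ 2 := by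
  rw [Fin.sum_univ_three, norm_sq_sp, nsq, nsq]
  simp [spin, inner_sp, pau0_apply, pau1_apply, pau2_apply]
  ring

/-- the inequality in real variables -/
theorem van_real {B r l g x w z y W X P E N0 : ℝ} (hB : 1 ≤ B) (hr : 200 * B ^ 7 ≤ r)
    (hl1 : 1 / B ≤ l) (hl2 : l ≤ B) (hg0 : 0 ≤ g) (hg1 : g ≤ 1)
    (hg : g = 1 ∨ 2 * r ≤ g * (x ^ 2 + w ^ 2)) (hw : 0 ≤ w) (hz : 0 ≤ z)
    (hX : X ^ 2 ≤ 2 * W ^ 2 + 2 * (B * w) ^ 2) (hP : |P| ≤ 8 * B ^ 2 * (z * w))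
    (hE : |E| ≤ B * (z * w)) (hN0 : N0 = l ^ 2 * (r - g * x ^ 2 + g * w ^ 2)) (S : ℝ)
    (hS : S = (l * z ^ 2 - W ^ 2 / 2 - x ^ 2 * N0) + r * N0 + (l * y ^ 2 - X ^ 2 / 2 + w ^ 2 * N0) +
      3 / 2 * (W ^ 2 + P + 4 * g * l ^ 2 * (x ^ 2 * w ^ 2) + E)) :
    0 ≤ S ∧ (S = 0 → z = 0 ∧ y = 0 ∧ w = 0 ∧ x ^ 2 = r ∧ g = 1) := by
  have hB0 : 0 < B := by linarith
  have hl0 : 0 < l := lt_of_lt_of_le (by positivity) hl1
  have hB5 : 1 ≤ B ^ 7 := one_le_pow₀ hB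
  have hr0 : 0 < r := by linarith
  obtain ⟨Bq, hBq⟩ : ∃ Bq, Bq = r ^ 2 - r * (1 + g) * x ^ 2 + g * x ^ 2 * (x ^ 2 + w ^ 2) +
    g * r * w ^ 2 := ⟨_, rfl⟩
  have e1 : S = l * z ^ 2 + l ^ 2 * Bq + l * y ^ 2 + l ^ 2 * (r * w ^ 2) +
      l ^ 2 * (g * (w ^ 2) ^ 2) + 3 * (g * l ^ 2 * (x ^ 2 * w ^ 2)) + (W ^ 2 - X ^ 2 / 2) +
      3 / 2 * (P + E) := by
    rw [hS, hN0, hBq]; ring
  have hlB : 1 ≤ l * B := by rwa [div_le_iff₀ hB0] at hl1
  -- absorption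
  have e2 : 3 / 2 * (9 * B ^ 2 * (z * w)) ≤ l * z ^ 2 / 2 + 100 * B ^ 5 * w ^ 2 := by
    have a0 : 0 ≤ (z - 14 * B ^ 3 * w) ^ 2 / (2 * B) := by positivity
    have a1 : (z - 14 * B ^ 3 * w) ^ 2 / (2 * B) =
      1 / B * z ^ 2 / 2 + 98 * B ^ 5 * w ^ 2 - 14 * B ^ 2 * (z * w) := by field_simp; ring
    have a2 : 1 / B * z ^ 2 ≤ l * z ^ 2 := mul_le_mul_of_nonneg_right hl1 (sq_nonneg _)
    have a3 : 0 ≤ B ^ 2 * (z * w) := by positivity
    have a4 : 0 ≤ B ^ 5 * w ^ 2 := by positivity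
    linarith
  have e3 : -(9 * B ^ 2 * (z * w)) ≤ P + E := by
    have a1 := (abs_le.1 hP).1
    have a2 := (abs_le.1 hE).1
    have a3 : B * (z * w) ≤ B ^ 2 * (z * w) :=
      mul_le_mul_of_nonneg_right (by nlinarith) (by positivity)
    linarith
  have e4 : 200 * B ^ 5 * w ^ 2 ≤ l ^ 2 * (r * w ^ 2) := by
    have a1 : 1 ≤ (l * B) ^ 2 := one_le_pow₀ hlB
    have a2 : 200 * B ^ 5 ≤ l ^ 2 * r := by
      have a3 : l ^ 2 * (200 * B ^ 7) ≤ l ^ 2 * r := mul_le_mul_of_nonneg_left hr (sq_nonneg _)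
      have a4 : l ^ 2 * (200 * B ^ 7) = (l * B) ^ 2 * (200 * B ^ 5) := by ring
      have a5 : 1 * (200 * B ^ 5) ≤ (l * B) ^ 2 * (200 * B ^ 5) :=
        mul_le_mul_of_nonneg_right a1 (by positivity)
      linarith
    have := mul_le_mul_of_nonneg_right a2 (sq_nonneg w)
    linarith
  have e5 : (B * w) ^ 2 ≤ B ^ 5 * w ^ 2 := by
    rw [mul_pow]
    exact mul_le_mul_of_nonneg_right (pow_le_pow_right₀ hB (by norm_num)) (sq_nonneg _)
  have e6 : w ^ 2 ≤ B ^ 5 * w ^ 2 := le_mul_of_one_le_left (sq_nonneg _) (one_le_pow₀ hB)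
  have e7 : 0 ≤ Bq ∧ (Bq = 0 → w = 0 → x ^ 2 = r ∧ g = 1) := by
    rcases hg with h | h
    · have a1 : Bq = (r - x ^ 2) ^ 2 + x ^ 2 * w ^ 2 + r * w ^ 2 := by rw [hBq, h]; ring
      refine ⟨by rw [a1]; positivity, fun h0 hw0 => ⟨?_, h⟩⟩
      rw [a1, hw0] at h0
      have : (r - x ^ 2) ^ 2 = 0 := by linarith
      have := pow_eq_zero_iff (two_ne_zero) |>.1 this
      linarith
    · have a1 : x ^ 2 * (2 * r) ≤ x ^ 2 * (g * (x ^ 2 + w ^ 2)) :=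
        mul_le_mul_of_nonneg_left h (sq_nonneg _)
      have a2 : g * (r * x ^ 2) ≤ r * x ^ 2 := mul_le_of_le_one_left (by positivity) hg1
      have a3 : 0 ≤ g * r * w ^ 2 := by positivity
      have a4 : r ^ 2 ≤ Bq := by rw [hBq]; linarith
      have a5 : 0 < r ^ 2 := by positivity
      exact ⟨by linarith, fun h0 _ => absurd h0 (by linarith)⟩
  have p1 : 0 ≤ l * z ^ 2 := by positivity
  have p2 : 0 ≤ l ^ 2 * Bq := mul_nonneg (sq_nonneg _) e7.1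
  have p3 : 0 ≤ l * y ^ 2 := by positivity
  have p4 : 0 ≤ l ^ 2 * (g * (w ^ 2) ^ 2) := by positivity
  have p5 : 0 ≤ g * l ^ 2 * (x ^ 2 * w ^ 2) := by positivity
  have p6 : 0 ≤ w ^ 2 := sq_nonneg _
  have key : l * z ^ 2 / 2 + l ^ 2 * Bq + l * y ^ 2 + w ^ 2 ≤ S := by linarith
  refine ⟨by linarith, fun h0 => ?_⟩
  have q1 : l * z ^ 2 = 0 := by linarith
  have q2 : l ^ 2 * Bq = 0 := by linarith
  have q3 : l * y ^ 2 = 0 := by linarith
  have q4 : w ^ 2 = 0 := by linarith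
  have hw0 : w = 0 := pow_eq_zero_iff (two_ne_zero) |>.1 q4
  refine ⟨?_, ?_, hw0, e7.2 ?_ hw0⟩
  · exact pow_eq_zero_iff (two_ne_zero) |>.1 ((mul_eq_zero.1 q1).resolve_left hl0.ne')
  · exact pow_eq_zero_iff (two_ne_zero) |>.1 ((mul_eq_zero.1 q3).resolve_left hl0.ne')
  · exact (mul_eq_zero.1 q2).resolve_left (by positivity)

theorem nz_eq_zero {ζ : Fin 4 → ℂ} (h : nz ζ = 0) : ζ = 0 := by
  funext a
  have := norm_le_nz ζ a
  rw [h] at this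
  exact norm_le_zero_iff.1 this

/-- **the pointwise vanishing inequality** -/
theorem van_pw {B r g E : ℝ} {f zm : Sp} {ν F : Fin 3 → ℝ} {α β : ℂ} {ζ η : Fin 4 → ℂ}
    (hB : 1 ≤ B) (hr : 200 * B ^ 7 ≤ r) (hl1 : 1 / B ≤ len ν) (hl2 : len ν ≤ B)
    (hf : ‖f‖ ^ 2 = 2 * len ν) (hν : ∀ k, spin f k = 2 * ν k) (hzm : ‖zm‖ ≤ B)
    (hD : symb ζ f + symb η (jf f) + β • zm = 0)
    (hF : ∀ k, F k = r * ν k - g / 2 * spin (α • f + β • jf f) k) (hg0 : 0 ≤ g) (hg1 : g ≤ 1)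
    (hg : g = 1 ∨ 4 * len ν * r ≤ g * ‖α • f + β • jf f‖ ^ 2) (hE : |E| ≤ B * (nz ζ * ‖β‖))
    (S : ℝ) (hS : S = (∑ k, ν k * (hat (jz ζ) k - ‖α‖ ^ 2 * F k)) + r * (∑ k, ν k * F k) -
      (∑ k, ν k * (hat (jz η) k - ‖β‖ ^ 2 * F k)) +
      3 / 2 * (∑ k, (hat (jzR ζ fun c => zz f k * η c) k -
        ((starRingEnd ℂ) α * (zz f k * β)).re * F k) + E)) :
    0 ≤ S ∧ (S = 0 → ζ = 0 ∧ η = 0 ∧ β = 0 ∧ ‖α‖ ^ 2 = r ∧ F = 0) := by
  have hB0 : 0 < B := by linarith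
  have hl0 : 0 < len ν := lt_of_lt_of_le (by positivity) hl1
  set w : ℂ := (starRingEnd ℂ) α * β with hw
  have hwk : ∀ k, (starRingEnd ℂ) α * (zz f k * β) = w * zz f k := fun k => by rw [hw]; ring
  have hFk : ∀ k, F k = (r - g * ‖α‖ ^ 2 + g * ‖β‖ ^ 2) * ν k - g * (w * zz f k).re := by
    intro k; rw [hF, spin_comb, hν, hwk]; ring
  have h1 : ∑ k, ν k * (w * zz f k).re = 0 := by
    have := spin_zz f w
    simp only [hν, mul_assoc] at this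
    rw [← Finset.mul_sum] at this
    linarith
  have h2 : ∑ k, ν k ^ 2 = len ν ^ 2 := (len_sq ν).symm
  have h3 : ∑ k, (w * zz f k).re ^ 2 = 4 * len ν ^ 2 * (‖α‖ ^ 2 * ‖β‖ ^ 2) := by
    rw [zz_sq, hf, hw, norm_mul, RCLike.norm_conj]; ring
  have hN0 : ∑ k, ν k * F k = len ν ^ 2 * (r - g * ‖α‖ ^ 2 + g * ‖β‖ ^ 2) := by
    simp only [hFk]
    rw [Fin.sum_univ_three] at h1 h2 ⊢
    linear_combination (r - g * ‖α‖ ^ 2 + g * ‖β‖ ^ 2) * h2 - g * h1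
  have hN1 : ∑ k, ν k * hat (jz ζ) k = len ν * nz ζ ^ 2 - ‖symb ζ f‖ ^ 2 / 2 := by
    have := alg_diag ζ f
    simp only [hν, mul_assoc] at this
    rw [← Finset.mul_sum, hf] at this
    linarith
  have hN2 : ∑ k, ν k * hat (jz η) k = -(len ν * nz η ^ 2 - ‖symb η (jf f)‖ ^ 2 / 2) := by
    have := alg_diag η (jf f)
    simp only [spin_jf, hν, neg_mul, mul_assoc] at this
    rw [Finset.sum_neg_distrib, ← Finset.mul_sum, norm_jf, hf] at this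
    linarith
  have hXW : symb η (jf f) = -(symb ζ f + β • zm) := by
    rw [eq_neg_iff_add_eq_zero, ← hD]; abel
  have hN3 : ∑ k, hat (jzR ζ fun c => zz f k * η c) k =
      ‖symb ζ f‖ ^ 2 + (inner ℂ (symb ζ f) (β • zm)).re := by
    have := alg_pol ζ η f (jf f)
    rw [inner_jf, mul_zero, Complex.zero_re, zero_sub, hXW, inner_neg_right, inner_add_right,
      Complex.neg_re, neg_neg, Complex.add_re, inner_self_eq_norm_sq_to_K] at this
    refine this.trans ?_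
    congr 1
    have : (((‖symb ζ f‖ : ℝ) : ℂ) ^ 2).re = ‖symb ζ f‖ ^ 2 := by norm_cast
    exact this
  have hN4 : ∑ k, (w * zz f k).re * F k = -(4 * g * len ν ^ 2 * (‖α‖ ^ 2 * ‖β‖ ^ 2)) := by
    simp only [hFk]
    rw [Fin.sum_univ_three] at h1 h3 ⊢
    linear_combination (r - g * ‖α‖ ^ 2 + g * ‖β‖ ^ 2) * h1 - g * h3
  have hzb : ‖β • zm‖ ≤ B * ‖β‖ := by
    rw [norm_smul, mul_comm]; exact mul_le_mul_of_nonneg_right hzm (norm_nonneg _)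
  have hX : ‖symb η (jf f)‖ ^ 2 ≤ 2 * ‖symb ζ f‖ ^ 2 + 2 * (B * ‖β‖) ^ 2 := by
    rw [hXW, norm_neg]
    have a1 := (norm_add_le (symb ζ f) (β • zm)).trans (add_le_add_right hzb _)
    have a2 := pow_le_pow_left₀ (norm_nonneg _) a1 2
    nlinarith [sq_nonneg (‖symb ζ f‖ - B * ‖β‖)]
  have hP : |(inner ℂ (symb ζ f) (β • zm)).re| ≤ 8 * B ^ 2 * (nz ζ * ‖β‖) := by
    refine (Complex.abs_re_le_norm _).trans ((norm_inner_le_norm _ _).trans ?_)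
    have a1 : ‖f‖ ≤ 2 * B := by nlinarith [norm_nonneg f]
    have a2 : ‖symb ζ f‖ ≤ 4 * nz ζ * (2 * B) :=
      (norm_symb_le ζ f).trans (mul_le_mul_of_nonneg_left a1 (by have := nz_nonneg ζ; positivity))
    calc _ ≤ (4 * nz ζ * (2 * B)) * (B * ‖β‖) :=
          mul_le_mul a2 hzb (norm_nonneg _) (by have := nz_nonneg ζ; positivity)
      _ = _ := by ring
  have hg' : g = 1 ∨ 2 * r ≤ g * (‖α‖ ^ 2 + ‖β‖ ^ 2) := by
    refine hg.imp_right fun h => ?_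
    rw [norm_comb, hf] at h
    have : 2 * len ν * (2 * r) ≤ 2 * len ν * (g * (‖α‖ ^ 2 + ‖β‖ ^ 2)) := by linarith
    exact le_of_mul_le_mul_left this (by positivity)
  have key := van_real (y := nz η) hB hr hl1 hl2 hg0 hg1 hg' (norm_nonneg β) (nz_nonneg ζ) hX hP hE
    hN0 S (by
      rw [hS]
      simp only [hwk, mul_sub, Finset.sum_sub_distrib, hN1, hN2, hN3, hN4]
      have a1 : ∀ t : ℝ, ∑ k, ν k * (t * F k) = t * ∑ k, ν k * F k := fun t => by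
        rw [Finset.mul_sum]; exact Finset.sum_congr rfl fun k _ => by ring
      rw [a1, a1]
      ring)
  refine ⟨key.1, fun h0 => ?_⟩
  obtain ⟨k1, k2, k3, k4, k5⟩ := key.2 h0
  have hβ : β = 0 := norm_eq_zero.1 k3
  refine ⟨nz_eq_zero k1, nz_eq_zero k2, hβ, k4, ?_⟩
  funext k
  rw [hFk, k4, k5, k3, hw, hβ]
  simp

/-! ## The total Weitzenböck identity -/

/-- the standard basis of the spinor space -/
def eS (p : Fin 2) : Sp := EuclideanSpace.single p 1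

theorem inner_eS (p : Fin 2) (v : Sp) : inner ℂ (eS p) v = v p := by
  rw [eS, EuclideanSpace.inner_single_left]; simp

/-- for `P c = ∇_c ψ` -/
theorem weitz_pw (P : Fin 4 → Sp) :
    ∑ p, ∑ q, ∑ k, hat (jzR (fun c => P c p) fun c => pauM k p q * P c q) k =
      ∑ c, ‖P c‖ ^ 2 - ‖∑ c, sig c (P c)‖ ^ 2 := by
  simp only [Fin.sum_univ_two, Fin.sum_univ_three, Fin.sum_univ_four, norm_sq_sp, nsq,
    PiLp.add_apply, sig_fin, hat, jzR, pauM]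
  simp
  ring

theorem spin_eq (ψ : Sp) (k : Fin 3) :
    ∑ p, ∑ q, ((starRingEnd ℂ) (ψ p) * (pauM k p q * ψ q)).re = spin ψ k := by
  fin_cases k <;>
    simp [spin, inner_sp, pau0_apply, pau1_apply, pau2_apply, pauM, Fin.sum_univ_two] <;> try ring

end Vale.Agent.P247E.R
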