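import Vale.Agent.P247E.R.Zint

/-!
# P247E, block R: the vanishing theorem `VAN`
-/

set_option linter.all false

open scoped ContDiff Topology ENNReal ComplexConjugate
open Set MeasureTheory Filter

noncomputable section

namespace Vale.Agent.P247E.R

open Vale.Agent.P204.GX Vale.Agent.P204.T4
open Vale.Agent.P247.H74 (e)
open Vale.Agent.P247.H647 (Sp En sig pau pauM omM hat len jz symb cov P3 nz jf)

theorem dec_jf (f g : Sp) :
    ((‖f‖ ^ 2 : ℝ) : ℂ) • g = inner ℂ f g • f + inner ℂ (jf f) g • jf f := by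
  rw [P247.H647.norm_sq_sp, Complex.ofReal_add, P247.H647.norm_sq_c, P247.H647.norm_sq_c]
  ext i
  fin_cases i <;>
    simp [P247.H647.inner_sp, P247.H647.jf0, P247.H647.jf1] <;> ring

/-- the second eigenspinor -/
theorem exists_phase {ν : Fin 3 → ℝ} {l : ℝ} (hl : 0 < l) {f g : Sp} (hf : ‖f‖ ^ 2 = 2 * l)
    (hg : ‖g‖ ^ 2 = 2 * l) (h1 : P3 ν f = (l : ℂ) • f) (h2 : P3 ν g = -(l : ℂ) • g) :
    ∃ c : ℂ, ‖c‖ = 1 ∧ g = c • jf f := by
  have h0 : inner ℂ f g = 0 := by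
    have h3 := P247.H647.P3_symm ν f g
    rw [h1, h2, inner_smul_left, inner_smul_right, Complex.conj_ofReal] at h3
    have h4 : (2 * l : ℂ) * inner ℂ f g = 0 := by linear_combination (-1 : ℂ) * h3
    have h5 : (2 * l : ℂ) ≠ 0 := by exact_mod_cast (by positivity : (2 * l : ℝ) ≠ 0)
    exact (mul_eq_zero.1 h4).resolve_left h5
  have h6 := dec_jf f g
  rw [h0, zero_smul, zero_add, hf] at h6
  have h5 : ((2 * l : ℝ) : ℂ) ≠ 0 := by exact_mod_cast (by positivity : (2 * l : ℝ) ≠ 0)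
  have h7 : g = (((2 * l : ℝ) : ℂ)⁻¹ * inner ℂ (jf f) g) • jf f := by
    rw [mul_smul, ← h6, smul_smul, inv_mul_cancel₀ h5, one_smul]
  refine ⟨_, ?_, h7⟩
  generalize ((2 * l : ℝ) : ℂ)⁻¹ * inner ℂ (jf f) g = c at h7
  have h8 : ‖g‖ ^ 2 = ‖c‖ ^ 2 * (2 * l) := by rw [h7, norm_smul, mul_pow, norm_jf, hf]
  have h9 : ‖c‖ ^ 2 = 1 := by
    have : (‖c‖ ^ 2 - 1) * (2 * l) = 0 := by linarith
    have := (mul_eq_zero.1 this).resolve_right (by positivity)
    linarith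
  exact (pow_eq_one_iff_of_nonneg (norm_nonneg _) two_ne_zero).1 h9

theorem jz_phase {c : ℂ} (hc : ‖c‖ = 1) (η : Fin 4 → ℂ) : jz (fun a => c * η a) = jz η := by
  funext a b
  have h : conj c * c = 1 := by rw [Complex.conj_mul', hc]; simp
  simp only [jz, map_mul]
  congr 2
  linear_combination (conj (η a) * η b) * h

/-- the pointwise vanishing inequality for a pair of eigenspinors -/
theorem van_pw' {B r g E : ℝ} {f f' zm : Sp} {ν F : Fin 3 → ℝ} {α β : ℂ} {ζ η : Fin 4 → ℂ}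
    (hB : 1 ≤ B) (hr : 200 * B ^ 7 ≤ r) (hl1 : 1 / B ≤ len ν) (hl2 : len ν ≤ B)
    (hf : ‖f‖ ^ 2 = 2 * len ν) (hf' : ‖f'‖ ^ 2 = 2 * len ν) (h1 : P3 ν f = (len ν : ℂ) • f)
    (h2 : P3 ν f' = -(len ν : ℂ) • f') (hzm : ‖zm‖ ≤ B)
    (hD : symb ζ f + symb η f' + β • zm = 0)
    (hF : ∀ k, F k = r * ν k - g / 2 * spin (α • f + β • f') k) (hg0 : 0 ≤ g) (hg1 : g ≤ 1)
    (hg : g = 1 ∨ 4 * len ν * r ≤ g * ‖α • f + β • f'‖ ^ 2) (hE : |E| ≤ B * (nz ζ * ‖β‖))
    (S : ℝ) (hS : S = (∑ k, ν k * (hat (jz ζ) k - ‖α‖ ^ 2 * F k)) + r * (∑ k, ν k * F k) -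
      (∑ k, ν k * (hat (jz η) k - ‖β‖ ^ 2 * F k)) +
      3 / 2 * (∑ k, (hat (jzR ζ fun c => inner ℂ f (pau k f') * η c) k -
        (conj α * (inner ℂ f (pau k f') * β)).re * F k) + E)) :
    0 ≤ S ∧ (S = 0 → ‖α‖ ^ 2 = r ∧ F = 0) := by
  have hl0 : 0 < len ν := lt_of_lt_of_le (by positivity) hl1
  obtain ⟨c, hc, rfl⟩ := exists_phase hl0 hf hf' h1 h2
  have hcc : c * conj c = 1 := by rw [Complex.mul_conj', hc]; simp
  have hν : ∀ k, spin f k = 2 * ν k := fun k => by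
    rw [spin, P247.H647.inner_eig hl0.ne' h1, hf]
    field_simp
  have e1 : β • c • jf f = (c * β) • jf f := by rw [smul_smul, mul_comm]
  have e2 : ∀ k, inner ℂ f (pau k (c • jf f)) = zz f k * c := fun k => by
    rw [map_smul, inner_smul_right, zz, mul_comm]
  have e3 : ‖c * β‖ = ‖β‖ := by rw [norm_mul, hc, one_mul]
  have key := van_pw (zm := conj c • zm) (α := α) (β := c * β) (ζ := ζ) (η := fun a => c * η a)
    (F := F) (g := g) (E := E) hB hr hl1 hl2 hf hν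
    (by rw [norm_smul, RCLike.norm_conj, hc, one_mul]; exact hzm)
    (by
      rw [← hD, smul_smul, mul_right_comm, hcc, one_mul, P247.H647.symb_apply η,
        P247.H647.symb_apply (fun a => c * η a)]
      congr 2
      exact Finset.sum_congr rfl fun a _ => by rw [map_smul, smul_smul, mul_comm])
    (by rw [← e1]; exact hF) hg0 hg1 (by rw [← e1]; exact hg) (by rw [e3]; exact hE) S
    (by rw [hS, jz_phase hc, e3]; simp only [e2, mul_assoc])
  exact ⟨key.1, fun h => ⟨(key.2 h).2.2.2.1, (key.2 h).2.2.2.2⟩⟩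

theorem gq_pos {R : ℝ} (hR : 0 < R) (t : ℝ) : 0 < gq R t :=
  div_pos (by positivity) (lt_of_lt_of_le (by positivity) (le_max_right _ _))

theorem gq_le_one {R : ℝ} (hR : 0 < R) (t : ℝ) : gq R t ≤ 1 :=
  (div_le_one (lt_of_lt_of_le (by positivity) (le_max_right _ _))).2 (le_max_right _ _)

theorem gq_cases {R : ℝ} (hR : 0 < R) (t : ℝ) :
    (t ≤ R ^ 2 ∧ gq R t = 1) ∨ (R ^ 2 ≤ t ∧ gq R t * t = R ^ 2) := by
  have h0 : 0 < R ^ 2 := by positivity
  rcases le_total t (R ^ 2) with h | h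
  · exact .inl ⟨h, by rw [gq, max_eq_right h, div_self h0.ne']⟩
  · exact .inr ⟨h, by rw [gq, max_eq_left h, div_mul_cancel₀ _ (h0.trans_le h).ne']⟩

variable {X : Type} [MetricSpace X] [CompactSpace X] [ConnectedSpace X] [MeasurableSpace X]
  [BorelSpace X] {Q : QM X} {L : LBc Q.toCM} {H : Op Q.t1 Q.t0}

theorem nu_smul (Q : QM X) (t : ℝ) (u : Fin 3 → ℝ) (x : X) (k : Fin 3) :
    Q.nu (t • u) x k = t * Q.nu u x k := by
  simp [QM.nu, Matrix.smul_vecMul]

theorem nul_mean (h1 : BQ1_statement) (h2 : BQ2_statement) {φ : Q.t1.H1}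
    (hm : ∀ j, ∫ x, ∑ k, Q.T x j k * Q.Fa L H φ x k ∂Q.mu = 0) (u : Fin 3 → ℝ) :
    Nul Q.mu fun x => ∑ k, Q.nu u x k * Q.Fa L H φ x k := by
  have h3 : ∀ j, Nul Q.mu fun x => ∑ k, Q.T x j k * Q.Fa L H φ x k := fun j =>
    ⟨integrable_finsetSum _ fun k _ => BM.int_mul (bm_T Q j k)
      ((memLp_Fa h1 h2 H φ k).integrable one_le_two), hm j⟩
  refine (nul_sum fun j => (h3 j).cmul (u j)).congr fun x => ?_
  simp only [QM.nu, Matrix.vecMul, dotProduct, Finset.mul_sum, Finset.sum_mul]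
  rw [Finset.sum_comm]
  exact Finset.sum_congr rfl fun k _ => Finset.sum_congr rfl fun j _ => by ring

/-- the Dirac equation in the eigenspinors -/
theorem dirac_eig {B : ℝ} {Z : X → En} {u : Fin 3 → ℝ} (s : Eig Q B Z u) (x : X) {ψ : Sp}
    {P : Fin 4 → Sp} (h : ∑ d, sig d (P d) + Z x ψ = 0) :
    symb (fun c => inner ℂ (s.gp x) (P c) + inner ℂ (df Q.toCM s.gp x c) ψ) (s.fp x) +
      symb (fun c => inner ℂ (s.gm x) (P c) + inner ℂ (df Q.toCM s.gm x c) ψ) (s.fm x) +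
      inner ℂ (s.gm x) ψ • ∑ d, sig d (df Q.toCM s.fm x d) = 0 := by
  have e1 : ∀ d, P d = (inner ℂ (s.gp x) (P d) + inner ℂ (df Q.toCM s.gp x d) ψ) • s.fp x +
      (inner ℂ (s.gm x) (P d) + inner ℂ (df Q.toCM s.gm x d) ψ) • s.fm x +
      inner ℂ (s.gm x) ψ • df Q.toCM s.fm x d + inner ℂ (s.gp x) ψ • df Q.toCM s.fp x d := by
    intro d
    have a1 := s.dec x (P d)
    have a2 := s.ddec x ψ d
    rw [add_smul, add_smul]
    linear_combination (norm := module) a1 - a2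
  have e2 : Z x ψ = inner ℂ (s.gp x) ψ • Z x (s.fp x) := by
    conv_lhs => rw [s.dec x ψ]
    rw [map_add, map_smul, map_smul, s.Z_fm, smul_zero, add_zero]
  have e3 : inner ℂ (s.gp x) ψ • (∑ c, sig c (df Q.toCM s.fp x c) + Z x (s.fp x)) = 0 := by
    rw [s.dir_fp, smul_zero]
  rw [e2, Finset.sum_congr rfl fun d _ => congrArg (sig d) (e1 d)] at h
  rw [P247.H647.symb_apply, P247.H647.symb_apply]
  simp only [map_add, map_smul, Finset.sum_add_distrib, smul_add, Finset.smul_sum] at h e3 ⊢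
  linear_combination (norm := abel1) h - e3

theorem VAN (h1 : BQ1_statement) (h2 : BQ2_statement) (hS : ST1_statement) : VAN_statement := by
  intro X _ _ _ _ _ Q L H B Z hH hZ
  obtain ⟨C, hC1, hC⟩ := exists_T_le Q
  have hB := hZ.pos
  obtain ⟨D, hD⟩ : ∃ D : ℝ, D = 1 + 4 * B + 72 * C * B := ⟨_, rfl⟩
  have hCB : 0 ≤ 72 * C * B := by positivity
  have hD1 : 1 ≤ D := by rw [hD]; linarith
  refine ⟨200 * D ^ 7, 4 * B, fun R w φ c hR hw hr hRc => ?_⟩
  have hD7 : 1 ≤ D ^ 7 := one_le_pow₀ hD1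
  have hr1 : 1 ≤ len c := by linarith
  have hr0 : 0 < len c := by linarith
  obtain ⟨s⟩ := hZ.eig c hr1
  set u : Fin 3 → ℝ := (len c)⁻¹ • c with hu
  have hcu : c = len c • u := by rw [hu, smul_smul, mul_inv_cancel₀ hr0.ne', one_smul]
  have n1 := nul_dir hS hH w φ s.gp_sm u
  have n2 := nul_dir hS hH w φ s.gm_sm u
  have n0 := nul_mean h1 h2 hw.mean u
  have n3 := nul_pol h1 hS hH w φ s.gp_sm s.gm_sm s.h_sm s.h_eq
  have nS := ((n1.add (n0.cmul (len c))).sub n2).add (n3.cmul (3 / 2))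
  generalize hSf : (fun x => _ : X → ℝ) = Sf at nS
  have key : ∀ᵐ x ∂Q.mu, 0 ≤ Sf x ∧ (Sf x = 0 →
      ‖inner ℂ (s.gp x) (ps w x)‖ ^ 2 = len c ∧ Q.Fa L H φ x = 0) := by
    filter_upwards [hw.dirac, hw.curv] with x hx1 hx2
    have hψ := s.dec x (ps w x)
    refine van_pw' (B := D) (r := len c) (g := gq R (‖ps w x‖ ^ 2)) (E := er w φ s.gp s.gm s.h x)
      (f := s.fp x) (f' := s.fm x) (zm := ∑ d, sig d (df Q.toCM s.fm x d)) (ν := Q.nu u x)
      (F := Q.Fa L H φ x) (α := inner ℂ (s.gp x) (ps w x)) (β := inner ℂ (s.gm x) (ps w x))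
      (ζ := zf w φ s.gp x) (η := zf w φ s.gm x) hD1 hr ?_ ?_ (s.fp_norm x) (s.fm_norm x)
      (s.fp_eig x) (s.fm_eig x) ?_ (dirac_eig s x hx1) (fun k => ?_) (gq_pos hR _).le
      (gq_le_one hR _) ?_ ?_ _ (congrFun hSf x).symm
    · refine le_trans ?_ (s.lam_ge x)
      rw [one_div]
      exact inv_anti₀ hB (by rw [hD]; linarith)
    · exact (s.lam_le x).trans (by rw [hD]; linarith)
    · refine (norm_sum_le _ _).trans ((Finset.sum_le_sum fun d _ =>
        (P247.H647.norm_sig d _).le.trans (s.dfm_le x d)).trans ?_)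
      simp only [Finset.sum_const, Finset.card_univ, Fintype.card_fin, nsmul_eq_mul]
      rw [hD]; push_cast; linarith
    · rw [← hψ, hx2 k, qT, spin]
      conv_lhs => rw [hcu, nu_smul]
      ring
    · rw [← hψ]
      refine (gq_cases hR (‖ps w x‖ ^ 2)).imp (fun h => h.2) fun h => ?_
      rw [h.2]
      exact le_trans (mul_le_mul_of_nonneg_right (by linarith [s.lam_le x]) hr0.le) hRc
    · refine (er_le w φ s.gp s.gm (hC x) fun j c => s.dh_le j x c).trans ?_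
      exact mul_le_mul_of_nonneg_right (by rw [hD]; linarith)
        (mul_nonneg (P247.H647.nz_nonneg _) (norm_nonneg _))
  have k0 := nS.ae_zero (key.mono fun x hx => hx.1)
  refine ⟨?_, fun x => (((√(len c))⁻¹ : ℝ) : ℂ) • s.gp x, fun a => (s.gp_sm a).const_smul _, ?_⟩
  · filter_upwards [key, k0] with x hx hx0 k
    rw [(hx.2 hx0).2]; rfl
  · filter_upwards [key, k0] with x hx hx0
    have a1 := (hx.2 hx0).1
    have a2 : ‖inner ℂ (s.gp x) (ps w x)‖ = √(len c) := by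
      rw [← a1, Real.sqrt_sq (norm_nonneg _)]
    rw [inner_smul_left, norm_mul, Complex.conj_ofReal, Complex.norm_real, a2, norm_inv,
      Real.norm_of_nonneg (Real.sqrt_nonneg _), inv_mul_cancel₀ (Real.sqrt_pos.2 hr0).ne']

end Vale.Agent.P247E.R
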