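import Vale.Agent.P247E.QSta
import Vale.Agent.P247E.Bas
import Vale.Agent.P247E.R.Pw
import Vale.Agent.P247.H647.Key

/-!
# P247E, block R: functions with integral zero, the polarised Stokes identity
-/

set_option linter.all false

open scoped ContDiff Topology ENNReal ComplexConjugate
open Set MeasureTheory Filter

noncomputable section

namespace Vale.Agent.P247E.R

open Vale.Agent.P204.GX Vale.Agent.P204.T4
open Vale.Agent.P247.H74 (e)
open Vale.Agent.P247.H647 (Sp En sig pau pauM omM hat len jz symb cov P3 nz jf)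

/-- integrable with integral zero -/
def Nul {X : Type} [MeasurableSpace X] (μ : Measure X) (f : X → ℝ) : Prop :=
  Integrable f μ ∧ ∫ x, f x ∂μ = 0

section nul

variable {X : Type} [MeasurableSpace X] {μ : Measure X} {f g : X → ℝ}

theorem Nul.add (h : Nul μ f) (h' : Nul μ g) : Nul μ fun x => f x + g x :=
  ⟨h.1.add h'.1, by rw [integral_add h.1 h'.1, h.2, h'.2, add_zero]⟩

theorem Nul.sub (h : Nul μ f) (h' : Nul μ g) : Nul μ fun x => f x - g x :=
  ⟨h.1.sub h'.1, by rw [integral_sub h.1 h'.1, h.2, h'.2, sub_zero]⟩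

theorem Nul.cmul (h : Nul μ f) (c : ℝ) : Nul μ fun x => c * f x :=
  ⟨h.1.const_mul c, by rw [integral_const_mul, h.2, mul_zero]⟩

theorem nul_sum {ι : Type} [Fintype ι] {f : ι → X → ℝ} (h : ∀ i, Nul μ (f i)) :
    Nul μ fun x => ∑ i, f i x :=
  ⟨integrable_finsetSum _ fun i _ => (h i).1, by
    rw [integral_finsetSum _ fun i _ => (h i).1]
    exact Finset.sum_eq_zero fun i _ => (h i).2⟩

theorem Nul.congr (h : Nul μ f) (k : ∀ x, f x = g x) : Nul μ g := by
  rwa [← show f = g from funext k]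

theorem Nul.ae_zero (h : Nul μ f) (k : ∀ᵐ x ∂μ, 0 ≤ f x) : ∀ᵐ x ∂μ, f x = 0 :=
  (integral_eq_zero_iff_of_nonneg_ae k h.1).1 h.2

end nul

variable {X : Type} [MetricSpace X]

section smf

variable {M : CM X} {E : Type} [NormedAddCommGroup E] [NormedSpace ℝ E] {f g : X → E}

theorem smf_add (hf : SmF M f) (hg : SmF M g) : SmF M fun x => f x + g x :=
  fun a => (hf a).add (hg a)

theorem smf_sub (hf : SmF M f) (hg : SmF M g) : SmF M fun x => f x - g x :=
  fun a => (hf a).sub (hg a)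

theorem smf_const (M : CM X) (v : E) : SmF M fun _ => v := fun _ => contDiff_const

theorem df_add (hf : SmF M f) (hg : SmF M g) (x : X) (c : Fin 4) :
    df M (fun x => f x + g x) x c = df M f x c + df M g x c := by
  unfold df
  rw [fderiv_fun_add ((hf _).differentiable (by simp) _) ((hg _).differentiable (by simp) _)]
  rfl

theorem df_sub (hf : SmF M f) (hg : SmF M g) (x : X) (c : Fin 4) :
    df M (fun x => f x - g x) x c = df M f x c - df M g x c := by
  unfold df
  rw [fderiv_fun_sub ((hf _).differentiable (by simp) _) ((hg _).differentiable (by simp) _)]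
  rfl

theorem df_const (M : CM X) (v : E) (x : X) (c : Fin 4) : df M (fun _ => v) x c = 0 := by
  unfold df
  simp

end smf

theorem jzR_lin (ζ η : Fin 4 → ℂ) (h : Fin 3 → ℂ) (t : Fin 3 → ℝ) (k : Fin 3) :
    ∑ j, t j * hat (jzR ζ fun c => h j * η c) k =
      hat (jzR ζ fun c => (∑ j, h j * (t j : ℂ)) * η c) k := by
  fin_cases k <;>
    simp only [hat, jzR, Fin.sum_univ_three, Fin.zero_eta, Fin.mk_one, Fin.reduceFinMk,
      Matrix.cons_val_zero, Matrix.cons_val_one, Matrix.cons_val, map_mul, map_add,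
      Complex.add_re, Complex.mul_re, Complex.add_im, Complex.mul_im, Complex.conj_re,
      Complex.conj_im, Complex.ofReal_re, Complex.ofReal_im] <;> ring

theorem hat_pol (ζ ξ : Fin 4 → ℂ) (k : Fin 3) :
    hat (jz (ζ + ξ)) k - hat (jz (ζ - ξ)) k = 4 * hat (jzR ζ ξ) k := by
  fin_cases k <;> simp only [hat, jz_add, jz_sub, Fin.zero_eta, Fin.mk_one, Fin.reduceFinMk,
    Matrix.cons_val_zero, Matrix.cons_val_one, Matrix.cons_val] <;> ring

theorem hat_jzR_add (ζ η η' : Fin 4 → ℂ) (k : Fin 3) :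
    hat (jzR ζ (η + η')) k = hat (jzR ζ η) k + hat (jzR ζ η') k := by
  fin_cases k <;> simp only [hat, jzR_add, Fin.zero_eta, Fin.mk_one, Fin.reduceFinMk,
    Matrix.cons_val_zero, Matrix.cons_val_one, Matrix.cons_val] <;> ring

theorem norm_pol (a b : ℂ) : ‖a + b‖ ^ 2 - ‖a - b‖ ^ 2 = 4 * (conj a * b).re := by
  rw [nsq, nsq]; simp; ring

theorem nz_le {ζ : Fin 4 → ℂ} {B : ℝ} (h : ∀ c, ‖ζ c‖ ≤ B) : nz ζ ≤ 2 * B := by
  have hB : 0 ≤ B := (norm_nonneg _).trans (h 0)
  refine Real.sqrt_le_iff.2 ⟨by positivity, ?_⟩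
  calc ∑ a, ‖ζ a‖ ^ 2 ≤ ∑ _a : Fin 4, B ^ 2 :=
        Finset.sum_le_sum fun a _ => pow_le_pow_left₀ (norm_nonneg _) (h a) 2
    _ = (2 * B) ^ 2 := by simp; ring

variable [CompactSpace X] [ConnectedSpace X] [MeasurableSpace X] [BorelSpace X] {Q : QM X}
  {L : LBc Q.toCM}

theorem bm_T (Q : QM X) (j k : Fin 3) : BM fun x => Q.T x j k :=
  bm_charts fun a => lb_cont (Q.T_smooth j k a).continuous

theorem exists_T_le (Q : QM X) : ∃ C : ℝ, 1 ≤ C ∧ ∀ x j k, |Q.T x j k| ≤ C := by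
  choose C hC using fun p : Fin 3 × Fin 3 => (bm_T Q p.1 p.2).2
  refine ⟨1 + ∑ p, |C p|, ?_, fun x j k => ?_⟩
  · have := Finset.sum_nonneg (s := Finset.univ) (f := fun p => |C p|) fun p _ => abs_nonneg _
    linarith
  · have h3 := Finset.single_le_sum (f := fun p => |C p|) (fun p _ => abs_nonneg _)
      (Finset.mem_univ (j, k))
    have h5 : |Q.T x j k| ≤ C (j, k) := hC (j, k) x
    have h6 := le_abs_self (C (j, k))
    linarith

theorem BM.int_mul {f g : X → ℝ} (hf : BM f) (hg : Integrable g Q.mu) :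
    Integrable (fun x => f x * g x) Q.mu :=
  hg.bdd_mul hf.1.aestronglyMeasurable (.of_forall hf.2.choose_spec)

/-- the spinor of `w` -/
abbrev ps (w : L.bp.H1) : X → Sp := (L.bp.J w : X → Sp)

/-- the covariant derivative of the section `⟨f, ψ⟩` -/
def zf (w : L.bp.H1) (φ : Q.t1.H1) (f : X → Sp) (x : X) : Fin 4 → ℂ := fun c =>
  inner ℂ (f x) (L.nabA w (Q.av φ) x c) + inner ℂ (df Q.toCM f x c) (ps w x)

variable {H : Op Q.t1 Q.t0}

theorem nul_one (hS : ST1_statement) (hH : Q.IsHod H) (w : L.bp.H1) (φ : Q.t1.H1) {f : X → Sp}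
    (hf : SmF Q.toCM f) (j : Fin 3) : Nul Q.mu fun x => ∑ k, Q.T x j k * (hat (jz (zf w φ f x)) k -
      ‖inner ℂ (f x) (ps w x)‖ ^ 2 * Q.Fa L H φ x k) := by
  obtain ⟨h1, h2, h3⟩ := hS X Q L H hH w φ f hf j
  exact ⟨integrable_finsetSum _ fun k _ => BM.int_mul (bm_T Q j k) ((h1 k).sub (h2 k)), h3⟩

theorem nul_dir (hS : ST1_statement) (hH : Q.IsHod H) (w : L.bp.H1) (φ : Q.t1.H1) {f : X → Sp}
    (hf : SmF Q.toCM f) (u : Fin 3 → ℝ) : Nul Q.mu fun x => ∑ k, Q.nu u x k *
      (hat (jz (zf w φ f x)) k - ‖inner ℂ (f x) (ps w x)‖ ^ 2 * Q.Fa L H φ x k) := by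
  refine (nul_sum fun j => (nul_one hS hH w φ hf j).cmul (u j)).congr fun x => ?_
  simp only [QM.nu, Matrix.vecMul, dotProduct, Finset.mul_sum, Finset.sum_mul]
  rw [Finset.sum_comm]
  exact Finset.sum_congr rfl fun k _ => Finset.sum_congr rfl fun j _ => by ring

/-- the error term of the polarised identity -/
def er (w : L.bp.H1) (φ : Q.t1.H1) (f g : X → Sp) (h : Fin 3 → X → ℂ) (x : X) : ℝ :=
  ∑ j, ∑ k, Q.T x j k * hat (jzR (zf w φ f x) fun c =>
    df Q.toCM (h j) x c * inner ℂ (g x) (ps w x)) k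

theorem er_le (w : L.bp.H1) (φ : Q.t1.H1) (f g : X → Sp) {h : Fin 3 → X → ℂ} {x : X} {B C : ℝ}
    (hT : ∀ j k, |Q.T x j k| ≤ C) (hh : ∀ j c, ‖df Q.toCM (h j) x c‖ ≤ B) :
    |er w φ f g h x| ≤ 72 * C * B * (nz (zf w φ f x) * ‖inner ℂ (g x) (ps w x)‖) := by
  have hC : 0 ≤ C := (abs_nonneg _).trans (hT 0 0)
  have h1 : ∀ j k, |Q.T x j k * hat (jzR (zf w φ f x) fun c =>
      df Q.toCM (h j) x c * inner ℂ (g x) (ps w x)) k| ≤
      C * (4 * (nz (zf w φ f x) * (2 * (B * ‖inner ℂ (g x) (ps w x)‖)))) := by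
    intro j k
    rw [abs_mul]
    refine mul_le_mul (hT j k) ((hat_jzR_le _ _ k).trans ?_) (abs_nonneg _) hC
    refine mul_le_mul_of_nonneg_left (mul_le_mul_of_nonneg_left (nz_le fun c => ?_)
      (P247.H647.nz_nonneg _)) (by norm_num)
    rw [norm_mul]
    exact mul_le_mul_of_nonneg_right (hh j c) (norm_nonneg _)
  refine (Finset.abs_sum_le_sum_abs _ _).trans ((Finset.sum_le_sum fun j _ =>
    (Finset.abs_sum_le_sum_abs _ _).trans (Finset.sum_le_sum fun k _ => h1 j k)).trans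
    (le_of_eq ?_))
  simp
  ring

/-- the polarised Stokes identity with complex weights -/
theorem nul_pol (hB : BQ1_statement) (hS : ST1_statement) (hH : Q.IsHod H) (w : L.bp.H1)
    (φ : Q.t1.H1) {f g : X → Sp} (hf : SmF Q.toCM f) (hg : SmF Q.toCM g) {h : Fin 3 → X → ℂ}
    (hh : ∀ j, SmF Q.toCM (h j)) {z : X → Fin 3 → ℂ}
    (hz : ∀ x k, ∑ j, h j x * (Q.T x j k : ℂ) = z x k) :
    Nul Q.mu fun x => ∑ k, (hat (jzR (zf w φ f x) fun c => z x k * zf w φ g x c) k -
      (conj (inner ℂ (f x) (ps w x)) * (z x k * inner ℂ (g x) (ps w x))).re * Q.Fa L H φ x k) +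
      er w φ f g h x := by
  obtain ⟨-, -, -, -, -, hL, -⟩ := hB X Q L
  have hm := fun j => hL (h j) g (hh j) hg
  refine (nul_sum fun j => ((nul_one hS hH w φ (smf_add hf (hm j).1) j).sub
    (nul_one hS hH w φ (smf_sub hf (hm j).1) j)).cmul (1 / 4)).congr fun x => ?_
  have e1 : ∀ j, zf w φ (fun x => f x + conj (h j x) • g x) x = zf w φ f x +
      ((fun c => h j x * zf w φ g x c) + fun c => df Q.toCM (h j) x c * inner ℂ (g x) (ps w x)) := by
    intro j; funext c
    simp only [zf, df_add hf (hm j).1, (hm j).2, inner_add_left, inner_smul_left, Pi.add_apply,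
      Complex.conj_conj]
    ring
  have e2 : ∀ j, zf w φ (fun x => f x - conj (h j x) • g x) x = zf w φ f x -
      ((fun c => h j x * zf w φ g x c) + fun c => df Q.toCM (h j) x c * inner ℂ (g x) (ps w x)) := by
    intro j; funext c
    simp only [zf, df_sub hf (hm j).1, (hm j).2, inner_add_left, inner_sub_left, inner_smul_left,
      Pi.add_apply, Pi.sub_apply, Complex.conj_conj]
    ring
  have e3 : ∀ j, 1 / 4 * (∑ k, Q.T x j k * (hat (jz (zf w φ (fun x => f x + conj (h j x) • g x) x)) k -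
      ‖inner ℂ (f x + conj (h j x) • g x) (ps w x)‖ ^ 2 * Q.Fa L H φ x k) -
      ∑ k, Q.T x j k * (hat (jz (zf w φ (fun x => f x - conj (h j x) • g x) x)) k -
      ‖inner ℂ (f x - conj (h j x) • g x) (ps w x)‖ ^ 2 * Q.Fa L H φ x k)) =
      ∑ k, (Q.T x j k * hat (jzR (zf w φ f x) fun c => h j x * zf w φ g x c) k -
        Q.T x j k * (conj (inner ℂ (f x) (ps w x)) * (h j x * inner ℂ (g x) (ps w x))).re *
          Q.Fa L H φ x k) + ∑ k, Q.T x j k * hat (jzR (zf w φ f x) fun c =>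
        df Q.toCM (h j) x c * inner ℂ (g x) (ps w x)) k := by
    intro j
    rw [← Finset.sum_sub_distrib, Finset.mul_sum, ← Finset.sum_add_distrib]
    refine Finset.sum_congr rfl fun k _ => ?_
    have a1 := hat_pol (zf w φ f x) ((fun c => h j x * zf w φ g x c) +
      fun c => df Q.toCM (h j) x c * inner ℂ (g x) (ps w x)) k
    have a2 := norm_pol (inner ℂ (f x) (ps w x)) (h j x * inner ℂ (g x) (ps w x))
    rw [hat_jzR_add] at a1
    rw [e1, e2, inner_add_left, inner_sub_left, inner_smul_left, Complex.conj_conj]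
    linear_combination (1 / 4 * Q.T x j k) * a1 - (1 / 4 * Q.T x j k * Q.Fa L H φ x k) * a2
  simp only [e3]
  rw [Finset.sum_add_distrib, Finset.sum_comm]
  congr 1
  refine Finset.sum_congr rfl fun k _ => ?_
  rw [Finset.sum_sub_distrib, jzR_lin, hz, ← hz x k]
  congr 1
  simp only [Fin.sum_univ_three, Complex.add_re, Complex.mul_re, Complex.add_im, Complex.mul_im,
    Complex.ofReal_re, Complex.ofReal_im]
  ring

theorem abs_vec_le (v : Sp) (c : Fin 4) : |vec v c| ≤ ‖v‖ := by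
  refine (Complex.abs_re_le_norm _).trans ((norm_inner_le_norm _ _).trans ?_)
  rw [P247.H647.norm_sig, s0, EuclideanSpace.norm_single, norm_one, one_mul]

theorem continuous_vec : Continuous vec := by
  refine continuous_pi fun c => ?_
  exact Complex.continuous_re.comp (continuous_const.inner continuous_id)

theorem memLp_vec {v : X → Sp} {p : ℝ≥0∞} (hv : MemLp v p Q.mu) (c : Fin 4) :
    MemLp (fun x => vec (v x) c) p Q.mu :=
  hv.of_le (((continuous_apply c).comp continuous_vec).comp_aestronglyMeasurable hv.1)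
    (.of_forall fun x => abs_vec_le _ _)

theorem bm_Fh (h1 : BQ1_statement) (h2 : BQ2_statement) (L : LBc Q.toCM) (k : Fin 3) :
    BM fun x => L.Fh x k := by
  obtain ⟨-, -, hb, -⟩ := h1 X Q L
  obtain ⟨-, -, hF, -⟩ := h2 X Q L
  obtain ⟨hm, C, hC⟩ := hb _ hF
  have hc : Continuous fun A : L2 => hat (ent A) k := by
    fin_cases k <;> simp only [hat, ent, Fin.zero_eta, Fin.mk_one, Fin.reduceFinMk,
      Matrix.cons_val_zero, Matrix.cons_val_one, Matrix.cons_val] <;> fun_prop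
  obtain ⟨D, hD⟩ := (isCompact_closedBall (0 : L2) C).exists_bound_of_continuousOn hc.continuousOn
  exact ⟨hc.comp_stronglyMeasurable hm, D, fun x => hD _ (mem_closedBall_zero_iff.2 (hC x))⟩

theorem memLp_Fa (h1 : BQ1_statement) (h2 : BQ2_statement) (H : Op Q.t1 Q.t0) (φ : Q.t1.H1)
    (k : Fin 3) : MemLp (fun x => Q.Fa L H φ x k) 2 Q.mu :=
  ((bm_Fh h1 h2 L k).memLp 2).add (memLp_vec (Lp.memLp (H.clm φ)) k.succ)

end Vale.Agent.P247E.R
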